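import Mathlib

open Matrix

namespace Vale.Agent.Lib.P204

/-- The first basis vector. -/
noncomputable abbrev e0 : Fin 4 → ℝ := Pi.single 0 1

/-- The bilinear form of a matrix. -/
noncomputable def bil (A : Matrix (Fin 4) (Fin 4) ℝ) (a b : Fin 4 → ℝ) : ℝ := a ⬝ᵥ (A *ᵥ b)

lemma bil_add_left (A B : Matrix (Fin 4) (Fin 4) ℝ) (a b : Fin 4 → ℝ) :
    bil (A + B) a b = bil A a b + bil B a b := by
  simp [bil, add_mulVec, dotProduct_add]

lemma bil_sub_left (A B : Matrix (Fin 4) (Fin 4) ℝ) (a b : Fin 4 → ℝ) :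
    bil (A - B) a b = bil A a b - bil B a b := by
  simp [bil, sub_mulVec, dotProduct_sub]

lemma bil_smul_left (c : ℝ) (A : Matrix (Fin 4) (Fin 4) ℝ) (a b : Fin 4 → ℝ) :
    bil (c • A) a b = c * bil A a b := by
  simp [bil, smul_mulVec, dotProduct_smul]

lemma bil_conj (X η Y : Matrix (Fin 4) (Fin 4) ℝ) (a b : Fin 4 → ℝ) :
    bil (Xᵀ * η * Y) a b = bil η (X *ᵥ a) (Y *ᵥ b) := by
  unfold bil
  rw [← mulVec_mulVec, ← mulVec_mulVec, dotProduct_mulVec, vecMul_transpose]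

lemma bil_antisymm {η : Matrix (Fin 4) (Fin 4) ℝ} (h : ηᵀ = -η) (a b : Fin 4 → ℝ) :
    bil η b a = - bil η a b := by
  unfold bil
  have h1 : a ⬝ᵥ (η *ᵥ b) = (a ᵥ* η) ⬝ᵥ b := dotProduct_mulVec _ _ _
  have h2 : a ᵥ* η = ηᵀ *ᵥ a := (mulVec_transpose η a).symm
  rw [h1, h2, h, neg_mulVec, neg_dotProduct, neg_neg, dotProduct_comm]

lemma bil_add_right (A : Matrix (Fin 4) (Fin 4) ℝ) (a b c : Fin 4 → ℝ) :
    bil A a (b + c) = bil A a b + bil A a c := by
  simp [bil, mulVec_add, dotProduct_add]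

lemma bil_add_mid (A : Matrix (Fin 4) (Fin 4) ℝ) (a b c : Fin 4 → ℝ) :
    bil A (a + b) c = bil A a c + bil A b c := by
  simp [bil, add_dotProduct]

lemma bil_smul_right (A : Matrix (Fin 4) (Fin 4) ℝ) (r : ℝ) (a b : Fin 4 → ℝ) :
    bil A a (r • b) = r * bil A a b := by
  simp [bil, mulVec_smul, dotProduct_smul]

lemma bil_smul_mid (A : Matrix (Fin 4) (Fin 4) ℝ) (r : ℝ) (a b : Fin 4 → ℝ) :
    bil A (r • a) b = r * bil A a b := by
  simp [bil, smul_dotProduct]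

lemma bil_self_of_antisymm {η : Matrix (Fin 4) (Fin 4) ℝ} (h : ηᵀ = -η) (a : Fin 4 → ℝ) :
    bil η a a = 0 := by
  have := bil_antisymm h a a
  linarith

/-- A matrix is determined by its bilinear form. -/
lemma matrix_ext_bil {A B : Matrix (Fin 4) (Fin 4) ℝ} (h : ∀ a b, bil A a b = bil B a b) : A = B := by
  ext i j
  have := h (Pi.single i 1) (Pi.single j 1)
  simpa [bil, mulVec_single, single_dotProduct] using this

section
variable {J : Matrix (Fin 4) (Fin 4) ℝ} (hJ : J * J = -1)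
include hJ

lemma J_J_mulVec (a : Fin 4 → ℝ) : J *ᵥ (J *ᵥ a) = -a := by
  rw [mulVec_mulVec, hJ, neg_mulVec, one_mulVec]

/-- The subspace `L = W ∩ JW` is two-dimensional, hence spanned by `u` and `Ju`. -/
lemma span_pair {u v N : Fin 4 → ℝ} (hN0 : N 0 = 1) (hJN0 : (J *ᵥ N) 0 = 0)
    (hu : u ≠ 0) (hu0 : u 0 = 0) (hJu0 : (J *ᵥ u) 0 = 0) (hv0 : v 0 = 0) (hJv0 : (J *ᵥ v) 0 = 0) :
    ∃ p q : ℝ, p • u + q • (J *ᵥ u) = v := by
  let φ : (Fin 4 → ℝ) →ₗ[ℝ] (ℝ × ℝ) :=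
    { toFun := fun a => (a 0, (J *ᵥ a) 0)
      map_add' := by
        intro a b
        simp [mulVec_add]
      map_smul' := by
        intro r a
        simp [mulVec_smul] }
  have hφ : ∀ a, φ a = (a 0, (J *ᵥ a) 0) := fun a => rfl
  have hsurj : Function.Surjective φ := by
    rintro ⟨x, y⟩
    refine ⟨x • N - y • (J *ᵥ N), ?_⟩
    rw [hφ]
    have h1 : (J *ᵥ N) 0 = 0 := hJN0
    have h2 : (J *ᵥ (J *ᵥ N)) 0 = - N 0 := by rw [J_J_mulVec hJ]; rfl
    ext
    · simp [hN0, h1]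
    · show (J *ᵥ (x • N - y • (J *ᵥ N))) 0 = y
      rw [mulVec_sub, mulVec_smul, mulVec_smul]
      simp only [Pi.sub_apply, Pi.smul_apply, smul_eq_mul]
      rw [h1, h2, hN0]
      ring
  have hrange : LinearMap.range φ = ⊤ := LinearMap.range_eq_top.mpr hsurj
  have hdim := LinearMap.finrank_range_add_finrank_ker φ
  rw [hrange, finrank_top, Module.finrank_prod, Module.finrank_self, Module.finrank_fin_fun] at hdim
  have hker : Module.finrank ℝ (LinearMap.ker φ) = 2 := by omega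
  have hmem : ∀ a, a 0 = 0 → (J *ᵥ a) 0 = 0 → a ∈ LinearMap.ker φ := by
    intro a h1 h2
    rw [LinearMap.mem_ker, hφ, h1, h2]
    rfl
  have hJJ : ∀ a, J *ᵥ (J *ᵥ a) = -a := J_J_mulVec hJ
  -- independence
  have hind : LinearIndependent ℝ ![u, J *ᵥ u] := by
    rw [LinearIndependent.pair_iff]
    intro s t hst
    have h1 : s • (J *ᵥ u) + t • (-u) = 0 := by
      have := congrArg (fun a => J *ᵥ a) hst
      simpa [mulVec_add, mulVec_smul, hJJ] using this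
    have h2 : (s ^ 2 + t ^ 2) • u = 0 := by
      have e : (s ^ 2 + t ^ 2) • u = s • (s • u + t • (J *ᵥ u)) - t • (s • (J *ᵥ u) + t • (-u)) := by
        ext i
        simp only [Pi.add_apply, Pi.smul_apply, smul_eq_mul, Pi.sub_apply, Pi.neg_apply]
        ring
      rw [e, hst, h1]
      simp
    have h3 : s ^ 2 + t ^ 2 = 0 := by
      rcases smul_eq_zero.mp h2 with h | h
      · exact h
      · exact absurd h hu
    constructor <;> nlinarith [sq_nonneg s, sq_nonneg t]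
  have hspan : Submodule.span ℝ (Set.range ![u, J *ᵥ u]) = LinearMap.ker φ := by
    apply Submodule.eq_of_le_of_finrank_eq
    · rw [Submodule.span_le]
      rintro _ ⟨i, rfl⟩
      fin_cases i
      · exact hmem u hu0 hJu0
      · exact hmem (J *ᵥ u) hJu0 (by rw [hJJ]; simp [hu0])
    · rw [finrank_span_eq_card hind, hker]
      simp
  have hvmem : v ∈ Submodule.span ℝ (Set.range ![u, J *ᵥ u]) := by
    rw [hspan]
    exact hmem v hv0 hJv0
  have hpair : Set.range ![u, J *ᵥ u] = {u, J *ᵥ u} := by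
    simp [Matrix.range_cons]
    exact Set.pair_comm _ _
  rw [hpair, Submodule.mem_span_pair] at hvmem
  exact hvmem

/-- `J` preserves any alternating form on the complex line `L`. -/
lemma bil_J_J_of_mem {η : Matrix (Fin 4) (Fin 4) ℝ} (hη : ηᵀ = -η) {u v N : Fin 4 → ℝ}
    (hN0 : N 0 = 1) (hJN0 : (J *ᵥ N) 0 = 0)
    (hu0 : u 0 = 0) (hJu0 : (J *ᵥ u) 0 = 0) (hv0 : v 0 = 0) (hJv0 : (J *ᵥ v) 0 = 0) :
    bil η (J *ᵥ u) (J *ᵥ v) = bil η u v := by
  by_cases hu : u = 0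
  · subst hu
    simp [bil, mulVec_zero]
  obtain ⟨p, q, rfl⟩ := span_pair hJ hN0 hJN0 hu hu0 hJu0 hv0 hJv0
  have e1 : J *ᵥ (p • u + q • (J *ᵥ u)) = p • (J *ᵥ u) + q • (-u) := by
    rw [mulVec_add, mulVec_smul, mulVec_smul, J_J_mulVec hJ]
  rw [e1]
  simp only [bil_add_right, bil_smul_right]
  have e2 : bil η (J *ᵥ u) (J *ᵥ u) = 0 := bil_self_of_antisymm hη _
  have e3 : bil η u u = 0 := bil_self_of_antisymm hη _
  have e4 : bil η (J *ᵥ u) (-u) = bil η u (J *ᵥ u) := by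
    have : (-u : Fin 4 → ℝ) = (-1 : ℝ) • u := by simp
    rw [this, bil_smul_right, bil_antisymm hη u (J *ᵥ u)]
    ring
  rw [e2, e3, e4]

end

end Vale.Agent.Lib.P204
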