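import Mathlib
import Vale.Agent.Lib.P204.Linear

open Matrix

namespace Vale.Agent.Lib.P204

/-- Squared norm of the off-diagonal part of the first row. -/
noncomputable def rho2 (J : Matrix (Fin 4) (Fin 4) ℝ) : ℝ := J 0 1 ^ 2 + J 0 2 ^ 2 + J 0 3 ^ 2

/-- A vector `N` with `N 0 = 1` and `(J N) 0 = 0`. -/
noncomputable def Nv (J : Matrix (Fin 4) (Fin 4) ℝ) : Fin 4 → ℝ :=
  ![1, -(J 0 0 * J 0 1 / rho2 J), -(J 0 0 * J 0 2 / rho2 J), -(J 0 0 * J 0 3 / rho2 J)]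

lemma rho2_pos {J : Matrix (Fin 4) (Fin 4) ℝ} (hJ : J * J = -1) : 0 < rho2 J := by
  unfold rho2
  by_contra h
  have h0 : J 0 1 ^ 2 + J 0 2 ^ 2 + J 0 3 ^ 2 = 0 :=
    le_antisymm (not_lt.mp h) (by positivity)
  have h1 : J 0 1 = 0 := by nlinarith [sq_nonneg (J 0 1), sq_nonneg (J 0 2), sq_nonneg (J 0 3)]
  have h2 : J 0 2 = 0 := by nlinarith [sq_nonneg (J 0 1), sq_nonneg (J 0 2), sq_nonneg (J 0 3)]
  have h3 : J 0 3 = 0 := by nlinarith [sq_nonneg (J 0 1), sq_nonneg (J 0 2), sq_nonneg (J 0 3)]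
  have e := congrFun (congrFun hJ 0) 0
  simp only [mul_apply, Fin.sum_univ_four, h1, h2, h3, Matrix.neg_apply, Matrix.one_apply_eq] at e
  nlinarith [sq_nonneg (J 0 0)]

lemma Nv_zero (J : Matrix (Fin 4) (Fin 4) ℝ) : Nv J 0 = 1 := rfl

lemma J_Nv_zero {J : Matrix (Fin 4) (Fin 4) ℝ} (hJ : J * J = -1) : (J *ᵥ Nv J) 0 = 0 := by
  have hr := rho2_pos hJ
  simp only [mulVec, dotProduct, Fin.sum_univ_four]
  have e1 : Nv J 1 = -(J 0 0 * J 0 1 / rho2 J) := rfl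
  have e2 : Nv J 2 = -(J 0 0 * J 0 2 / rho2 J) := rfl
  have e3 : Nv J 3 = -(J 0 0 * J 0 3 / rho2 J) := rfl
  rw [Nv_zero, e1, e2, e3]
  have : J 0 1 ^ 2 + J 0 2 ^ 2 + J 0 3 ^ 2 = rho2 J := rfl
  field_simp
  linear_combination (-(J 0 0)) * this

/-- Projection along `N` onto the hyperplane `x_0 = 0`. -/
noncomputable def Pm (J : Matrix (Fin 4) (Fin 4) ℝ) : Matrix (Fin 4) (Fin 4) ℝ :=
  1 - vecMulVec (Nv J) e0

/-- Projection onto the complex line `L`. -/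
noncomputable def Rm (J : Matrix (Fin 4) (Fin 4) ℝ) : Matrix (Fin 4) (Fin 4) ℝ :=
  1 - vecMulVec (Nv J) e0 + vecMulVec (J *ᵥ Nv J) (e0 ᵥ* J)

/-- The nonnegative form vanishing exactly on `L`. -/
noncomputable def Dm (J : Matrix (Fin 4) (Fin 4) ℝ) : Matrix (Fin 4) (Fin 4) ℝ :=
  Jᵀ * vecMulVec e0 e0 - vecMulVec e0 e0 * J

lemma e0_dot (a : Fin 4 → ℝ) : e0 ⬝ᵥ a = a 0 := by
  simp [e0, single_dotProduct]

lemma vmv_mulVec (u v a : Fin 4 → ℝ) : vecMulVec u v *ᵥ a = (v ⬝ᵥ a) • u := by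
  ext i
  simp [vecMulVec_apply, mulVec, dotProduct, Finset.mul_sum, mul_comm, mul_left_comm]

lemma e0_vecMul_dot (J : Matrix (Fin 4) (Fin 4) ℝ) (a : Fin 4 → ℝ) :
    (e0 ᵥ* J) ⬝ᵥ a = (J *ᵥ a) 0 := by
  rw [← dotProduct_mulVec, e0_dot]

lemma Pm_mulVec (J : Matrix (Fin 4) (Fin 4) ℝ) (a : Fin 4 → ℝ) :
    Pm J *ᵥ a = a - a 0 • Nv J := by
  unfold Pm
  rw [sub_mulVec, one_mulVec, vmv_mulVec, e0_dot]

lemma Rm_mulVec (J : Matrix (Fin 4) (Fin 4) ℝ) (a : Fin 4 → ℝ) :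
    Rm J *ᵥ a = a - a 0 • Nv J + (J *ᵥ a) 0 • (J *ᵥ Nv J) := by
  unfold Rm
  rw [add_mulVec, sub_mulVec, one_mulVec, vmv_mulVec, vmv_mulVec, e0_dot, e0_vecMul_dot]

lemma bil_Dm (J : Matrix (Fin 4) (Fin 4) ℝ) (a b : Fin 4 → ℝ) :
    bil (Dm J) a b = (J *ᵥ a) 0 * b 0 - a 0 * (J *ᵥ b) 0 := by
  unfold Dm
  rw [bil_sub_left]
  have e1 : bil (Jᵀ * vecMulVec e0 e0) a b = (J *ᵥ a) 0 * b 0 := by
    unfold bil
    rw [← mulVec_mulVec, vmv_mulVec, e0_dot, mulVec_smul, dotProduct_smul, mulVec_transpose,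
      dotProduct_comm, e0_vecMul_dot, smul_eq_mul, mul_comm]
  have e2 : bil (vecMulVec e0 e0 * J) a b = a 0 * (J *ᵥ b) 0 := by
    unfold bil
    rw [← mulVec_mulVec, vmv_mulVec, e0_dot, dotProduct_smul, dotProduct_comm, e0_dot, smul_eq_mul,
      mul_comm]
  rw [e1, e2]

/-- The compatible form, before adding the large positive part. -/
noncomputable def omega1 (J η : Matrix (Fin 4) (Fin 4) ℝ) : Matrix (Fin 4) (Fin 4) ℝ :=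
  (Pm J)ᵀ * η * (Pm J) + (Pm J * J)ᵀ * η * (Pm J * J) - (Rm J)ᵀ * η * (Rm J)

/-- The compatible form. -/
noncomputable def omegaD (J η : Matrix (Fin 4) (Fin 4) ℝ) (D : ℝ) : Matrix (Fin 4) (Fin 4) ℝ :=
  omega1 J η + D • Dm J

lemma bil_omega1 (J η : Matrix (Fin 4) (Fin 4) ℝ) (a b : Fin 4 → ℝ) :
    bil (omega1 J η) a b = bil η (Pm J *ᵥ a) (Pm J *ᵥ b)
      + bil η (Pm J *ᵥ (J *ᵥ a)) (Pm J *ᵥ (J *ᵥ b)) - bil η (Rm J *ᵥ a) (Rm J *ᵥ b) := by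
  unfold omega1
  rw [bil_sub_left, bil_add_left, bil_conj, bil_conj, bil_conj, mulVec_mulVec, mulVec_mulVec]

lemma bil_omegaD (J η : Matrix (Fin 4) (Fin 4) ℝ) (D : ℝ) (a b : Fin 4 → ℝ) :
    bil (omegaD J η D) a b = bil (omega1 J η) a b + D * ((J *ᵥ a) 0 * b 0 - a 0 * (J *ᵥ b) 0) := by
  unfold omegaD
  rw [bil_add_left, bil_smul_left, bil_Dm]

lemma conj_antisymm {η : Matrix (Fin 4) (Fin 4) ℝ} (hη : ηᵀ = -η) (X : Matrix (Fin 4) (Fin 4) ℝ) :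
    (Xᵀ * η * X)ᵀ = -(Xᵀ * η * X) := by
  rw [transpose_mul, transpose_mul, transpose_transpose, hη]
  simp [Matrix.mul_assoc]

lemma omegaD_antisymm {J η : Matrix (Fin 4) (Fin 4) ℝ} (hη : ηᵀ = -η) (D : ℝ) :
    (omegaD J η D)ᵀ = -(omegaD J η D) := by
  have hDm : (Dm J)ᵀ = - Dm J := by
    unfold Dm
    have h : (vecMulVec e0 e0)ᵀ = vecMulVec e0 e0 := by
      ext i j
      simp [vecMulVec_apply, mul_comm]
    rw [transpose_sub, transpose_mul, transpose_mul, transpose_transpose, h]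
    abel
  unfold omegaD omega1
  rw [transpose_add, transpose_sub, transpose_add, conj_antisymm hη, conj_antisymm hη,
    conj_antisymm hη, transpose_smul, hDm]
  simp only [smul_neg]
  abel

section
variable {J : Matrix (Fin 4) (Fin 4) ℝ} (hJ : J * J = -1) {η : Matrix (Fin 4) (Fin 4) ℝ}
  (hη : ηᵀ = -η)
include hJ hη

/-- The image of `R` lies in `L`. -/
lemma Rm_mem (a : Fin 4 → ℝ) :
    (Rm J *ᵥ a) 0 = 0 ∧ (J *ᵥ (Rm J *ᵥ a)) 0 = 0 := by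
  have h1 := J_Nv_zero hJ
  have h2 : (J *ᵥ (J *ᵥ Nv J)) 0 = -1 := by
    rw [J_J_mulVec hJ]; simp [Nv_zero]
  constructor
  · rw [Rm_mulVec]
    simp [h1, Nv_zero]
  · rw [Rm_mulVec, mulVec_add, mulVec_sub, mulVec_smul, mulVec_smul]
    simp only [Pi.add_apply, Pi.sub_apply, Pi.smul_apply, smul_eq_mul]
    rw [h1, h2]
    ring

omit hη in
/-- `R` commutes with `J`. -/
lemma Rm_comm (a : Fin 4 → ℝ) : Rm J *ᵥ (J *ᵥ a) = J *ᵥ (Rm J *ᵥ a) := by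
  rw [Rm_mulVec, Rm_mulVec, mulVec_add, mulVec_sub, mulVec_smul, mulVec_smul, J_J_mulVec hJ,
    J_J_mulVec hJ]
  ext i
  simp only [Pi.add_apply, Pi.sub_apply, Pi.smul_apply, smul_eq_mul, Pi.neg_apply]
  ring

/-- Invariance of the third term. -/
lemma bil_Rm_J (a b : Fin 4 → ℝ) :
    bil η (Rm J *ᵥ (J *ᵥ a)) (Rm J *ᵥ (J *ᵥ b)) = bil η (Rm J *ᵥ a) (Rm J *ᵥ b) := by
  rw [Rm_comm hJ, Rm_comm hJ]
  have ha := Rm_mem hJ hη a
  have hb := Rm_mem hJ hη b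
  exact bil_J_J_of_mem hJ hη (Nv_zero J) (J_Nv_zero hJ) ha.1 ha.2 hb.1 hb.2

/-- `J`-invariance of the form. -/
lemma omegaD_compatible (D : ℝ) : Jᵀ * omegaD J η D * J = omegaD J η D := by
  apply matrix_ext_bil
  intro a b
  rw [bil_conj, bil_omegaD, bil_omegaD, bil_omega1, bil_omega1, J_J_mulVec hJ, J_J_mulVec hJ,
    bil_Rm_J hJ hη]
  have h1 : Pm J *ᵥ (-a) = - (Pm J *ᵥ a) := by rw [mulVec_neg]
  have h2 : Pm J *ᵥ (-b) = - (Pm J *ᵥ b) := by rw [mulVec_neg]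
  rw [h1, h2]
  have h3 : bil η (-(Pm J *ᵥ a)) (-(Pm J *ᵥ b)) = bil η (Pm J *ᵥ a) (Pm J *ᵥ b) := by
    simp [bil, mulVec_neg]
  rw [h3]
  simp only [Pi.neg_apply]
  ring

/-- The form restricts to `η` on the hyperplane. -/
lemma bil_omegaD_of_hyperplane (D : ℝ) {a b : Fin 4 → ℝ} (ha : a 0 = 0) (hb : b 0 = 0) :
    bil (omegaD J η D) a b = bil η a b := by
  rw [bil_omegaD, bil_omega1]
  have hP : ∀ c : Fin 4 → ℝ, c 0 = 0 → Pm J *ᵥ c = c := by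
    intro c hc
    rw [Pm_mulVec, hc]
    simp
  have hQ : ∀ c : Fin 4 → ℝ, c 0 = 0 →
      Pm J *ᵥ (J *ᵥ c) = J *ᵥ (Rm J *ᵥ c) := by
    intro c hc
    rw [Rm_mulVec, Pm_mulVec, hc, mulVec_add, mulVec_sub, mulVec_smul, mulVec_smul, J_J_mulVec hJ]
    ext i
    simp only [Pi.add_apply, Pi.sub_apply, Pi.smul_apply, smul_eq_mul, Pi.neg_apply]
    ring
  rw [hP a ha, hP b hb, hQ a ha, hQ b hb, ha, hb]
  have hRa := Rm_mem hJ hη a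
  have hRb := Rm_mem hJ hη b
  rw [bil_J_J_of_mem hJ hη (Nv_zero J) (J_Nv_zero hJ) hRa.1 hRa.2 hRb.1 hRb.2]
  ring

omit hη in
/-- Evaluation on `(v, J v)`. -/
lemma bil_omegaD_J (D : ℝ) (v : Fin 4 → ℝ) :
    bil (omegaD J η D) v (J *ᵥ v) = bil (omega1 J η) v (J *ᵥ v) + D * (v 0 ^ 2 + (J *ᵥ v) 0 ^ 2) := by
  rw [bil_omegaD, J_J_mulVec hJ]
  simp only [Pi.neg_apply]
  ring

/-- On `L` the form `omega1` evaluates to `η`. -/
lemma bil_omega1_of_mem {v : Fin 4 → ℝ} (h0 : v 0 = 0) (h1 : (J *ᵥ v) 0 = 0) :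
    bil (omega1 J η) v (J *ᵥ v) = bil η v (J *ᵥ v) := by
  rw [bil_omega1, J_J_mulVec hJ]
  have hP : ∀ c : Fin 4 → ℝ, c 0 = 0 → Pm J *ᵥ c = c := by
    intro c hc
    rw [Pm_mulVec, hc]
    simp
  have hP' : Pm J *ᵥ (-v) = -v := hP (-v) (by simp [h0])
  have hR : Rm J *ᵥ v = v := by
    rw [Rm_mulVec, h0, h1]
    simp
  have hR' : Rm J *ᵥ (J *ᵥ v) = J *ᵥ v := by
    rw [Rm_comm hJ, hR]
  rw [hP v h0, hP _ h1, hP', hR, hR']
  have h3 : bil η (J *ᵥ v) (-v) = bil η v (J *ᵥ v) := by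
    have : (-v : Fin 4 → ℝ) = (-1 : ℝ) • v := by simp
    rw [this, bil_smul_right, bil_antisymm hη v (J *ᵥ v)]
    ring
  rw [h3]
  ring

end

end Vale.Agent.Lib.P204
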