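import Mathlib

open Matrix
open scoped ContDiff

namespace Vale.Agent.Lib.P204.Cur

/-- The wedge pairing of two matrices (antisymmetric ones are two-forms): the coefficient of
`dx0 dx1 dx2 dx3` in `A ∧ B` (with the usual convention `A = ∑_{i<j} A i j dxi dxj`). -/
def wedge (A B : Matrix (Fin 4) (Fin 4) ℝ) : ℝ :=
  A 0 1 * B 2 3 - A 0 2 * B 1 3 + A 0 3 * B 1 2 + A 1 2 * B 0 3 - A 1 3 * B 0 2 + A 2 3 * B 0 1

/-- The `J`-invariant part of a bilinear form. -/
noncomputable def part11 (J A : Matrix (Fin 4) (Fin 4) ℝ) : Matrix (Fin 4) (Fin 4) ℝ :=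
  (1 / 2 : ℝ) • (A + Jᵀ * A * J)

/-- The exterior derivative of a one-form `S` with components `S x j`. -/
noncomputable def dOne (S : (Fin 4 → ℝ) → Fin 4 → ℝ) (x : Fin 4 → ℝ) : Matrix (Fin 4) (Fin 4) ℝ :=
  Matrix.of fun i j =>
    fderiv ℝ (fun z => S z j) x (Pi.single i 1) - fderiv ℝ (fun z => S z i) x (Pi.single j 1)

/-- Closedness of a two-form in coordinates. -/
def IsClosedForm (θ : (Fin 4 → ℝ) → Matrix (Fin 4) (Fin 4) ℝ) : Prop :=
  ∀ x i j k, fderiv ℝ (fun z => θ z j k) x (Pi.single i 1)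
    + fderiv ℝ (fun z => θ z k i) x (Pi.single j 1)
    + fderiv ℝ (fun z => θ z i j) x (Pi.single k 1) = 0

/-- Smooth two-forms on the torus `ℝ^4/ℤ^4`: entrywise smooth, periodic, antisymmetric matrix
valued functions. -/
def IsForm (θ : (Fin 4 → ℝ) → Matrix (Fin 4) (Fin 4) ℝ) : Prop :=
  (∀ i j, ContDiff ℝ ∞ (fun x => θ x i j)) ∧
  (∀ (k : Fin 4) x, θ (x + Pi.single k 1) = θ x) ∧
  ∀ x, (θ x)ᵀ = -θ x

/-- The real vector space of smooth two-forms on the torus `ℝ^4/ℤ^4`. -/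
def Forms : Submodule ℝ ((Fin 4 → ℝ) → Matrix (Fin 4) (Fin 4) ℝ) where
  carrier := {θ | IsForm θ}
  add_mem' := by
    intro a b ha hb
    refine ⟨fun i j => (ha.1 i j).add (hb.1 i j), fun k x => ?_, fun x => ?_⟩
    · simp only [Pi.add_apply, ha.2.1, hb.2.1]
    · simp only [Pi.add_apply, Matrix.transpose_add, ha.2.2, hb.2.2, neg_add]
  zero_mem' := by
    refine ⟨fun i j => contDiff_const, fun k x => rfl, fun x => ?_⟩
    simp
  smul_mem' := by
    intro c a ha
    refine ⟨fun i j => contDiff_const.mul (ha.1 i j), fun k x => ?_, fun x => ?_⟩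
    · simp only [Pi.smul_apply, ha.2.1]
    · simp only [Pi.smul_apply, Matrix.transpose_smul, ha.2.2, smul_neg]

end Vale.Agent.Lib.P204.Cur
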