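import Mathlib
import Vale.Agent.Lib.P204.CurDefs

open Matrix

namespace Vale.Agent.Lib.P204.Cur

/-- The Pfaffian. -/
def pf (A : Matrix (Fin 4) (Fin 4) ℝ) : ℝ := A 0 1 * A 2 3 - A 0 2 * A 1 3 + A 0 3 * A 1 2

/-- The `J`-anti-invariant part of a bilinear form. -/
noncomputable def partAnti (J A : Matrix (Fin 4) (Fin 4) ℝ) : Matrix (Fin 4) (Fin 4) ℝ :=
  (1 / 2 : ℝ) • (A - Jᵀ * A * J)

/-- The value `θ(v, J v)`. -/
def qf (θ J : Matrix (Fin 4) (Fin 4) ℝ) (v : Fin 4 → ℝ) : ℝ := v ⬝ᵥ (θ *ᵥ (J *ᵥ v))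

/-- The Hodge dual type matrix. -/
def dual (A : Matrix (Fin 4) (Fin 4) ℝ) : Matrix (Fin 4) (Fin 4) ℝ :=
  !![0, A 2 3, -A 1 3, A 1 2;
     -A 2 3, 0, A 0 3, -A 0 2;
     A 1 3, -A 0 3, 0, A 0 1;
     -A 1 2, A 0 2, -A 0 1, 0]

lemma pf_add (A B : Matrix (Fin 4) (Fin 4) ℝ) : pf (A + B) = pf A + wedge A B + pf B := by
  simp only [pf, wedge, Matrix.add_apply]; ring

lemma pf_smul (c : ℝ) (A : Matrix (Fin 4) (Fin 4) ℝ) : pf (c • A) = c ^ 2 * pf A := by
  simp only [pf, Matrix.smul_apply, smul_eq_mul]; ring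

lemma wedge_comm (A B : Matrix (Fin 4) (Fin 4) ℝ) : wedge A B = wedge B A := by
  simp only [wedge]; ring

lemma wedge_self (A : Matrix (Fin 4) (Fin 4) ℝ) : wedge A A = 2 * pf A := by
  simp only [wedge, pf]; ring

lemma wedge_add_left (A B C : Matrix (Fin 4) (Fin 4) ℝ) :
    wedge (A + B) C = wedge A C + wedge B C := by
  simp only [wedge, Matrix.add_apply]; ring

lemma wedge_add_right (A B C : Matrix (Fin 4) (Fin 4) ℝ) :
    wedge A (B + C) = wedge A B + wedge A C := by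
  simp only [wedge, Matrix.add_apply]; ring

lemma wedge_sub_left (A B C : Matrix (Fin 4) (Fin 4) ℝ) :
    wedge (A - B) C = wedge A C - wedge B C := by
  simp only [wedge, Matrix.sub_apply]; ring

lemma wedge_sub_right (A B C : Matrix (Fin 4) (Fin 4) ℝ) :
    wedge A (B - C) = wedge A B - wedge A C := by
  simp only [wedge, Matrix.sub_apply]; ring

lemma wedge_smul_left (c : ℝ) (A B : Matrix (Fin 4) (Fin 4) ℝ) :
    wedge (c • A) B = c * wedge A B := by
  simp only [wedge, Matrix.smul_apply, smul_eq_mul]; ring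

lemma wedge_smul_right (c : ℝ) (A B : Matrix (Fin 4) (Fin 4) ℝ) :
    wedge A (c • B) = c * wedge A B := by
  simp only [wedge, Matrix.smul_apply, smul_eq_mul]; ring

lemma wedge_neg_left (A B : Matrix (Fin 4) (Fin 4) ℝ) : wedge (-A) B = - wedge A B := by
  simp only [wedge, Matrix.neg_apply]; ring

/-- Antisymmetry at entry level. -/
lemma anti_entry {A : Matrix (Fin 4) (Fin 4) ℝ} (hA : Aᵀ = -A) (i j : Fin 4) : A j i = - A i j := by
  have := congrFun (congrFun hA i) j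
  simpa using this

lemma anti_diag {A : Matrix (Fin 4) (Fin 4) ℝ} (hA : Aᵀ = -A) (i : Fin 4) : A i i = 0 := by
  have := anti_entry hA i i
  linarith

lemma det_four (P : Matrix (Fin 4) (Fin 4) ℝ) : P.det =
    P 0 0 * (P 1 1 * (P 2 2 * P 3 3 - P 2 3 * P 3 2) - P 1 2 * (P 2 1 * P 3 3 - P 2 3 * P 3 1) + P 1 3 * (P 2 1 * P 3 2 - P 2 2 * P 3 1))
  - P 0 1 * (P 1 0 * (P 2 2 * P 3 3 - P 2 3 * P 3 2) - P 1 2 * (P 2 0 * P 3 3 - P 2 3 * P 3 0) + P 1 3 * (P 2 0 * P 3 2 - P 2 2 * P 3 0))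
  + P 0 2 * (P 1 0 * (P 2 1 * P 3 3 - P 2 3 * P 3 1) - P 1 1 * (P 2 0 * P 3 3 - P 2 3 * P 3 0) + P 1 3 * (P 2 0 * P 3 1 - P 2 1 * P 3 0))
  - P 0 3 * (P 1 0 * (P 2 1 * P 3 2 - P 2 2 * P 3 1) - P 1 1 * (P 2 0 * P 3 2 - P 2 2 * P 3 0) + P 1 2 * (P 2 0 * P 3 1 - P 2 1 * P 3 0)) := by
  rw [Matrix.det_succ_row_zero]
  simp only [Fin.sum_univ_four, Matrix.det_fin_three, Matrix.submatrix_apply]
  have h1 : (Fin.succ (0:Fin 3)) = (1 : Fin 4) := rfl
  have h2 : (Fin.succ (1:Fin 3)) = (2 : Fin 4) := rfl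
  have h3 : (Fin.succ (2:Fin 3)) = (3 : Fin 4) := rfl
  have a00 : Fin.succAbove (0:Fin 4) (0:Fin 3) = 1 := rfl
  have a01 : Fin.succAbove (0:Fin 4) (1:Fin 3) = 2 := rfl
  have a02 : Fin.succAbove (0:Fin 4) (2:Fin 3) = 3 := rfl
  have a10 : Fin.succAbove (1:Fin 4) (0:Fin 3) = 0 := rfl
  have a11 : Fin.succAbove (1:Fin 4) (1:Fin 3) = 2 := rfl
  have a12 : Fin.succAbove (1:Fin 4) (2:Fin 3) = 3 := rfl
  have a20 : Fin.succAbove (2:Fin 4) (0:Fin 3) = 0 := rfl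
  have a21 : Fin.succAbove (2:Fin 4) (1:Fin 3) = 1 := rfl
  have a22 : Fin.succAbove (2:Fin 4) (2:Fin 3) = 3 := rfl
  have a30 : Fin.succAbove (3:Fin 4) (0:Fin 3) = 0 := rfl
  have a31 : Fin.succAbove (3:Fin 4) (1:Fin 3) = 1 := rfl
  have a32 : Fin.succAbove (3:Fin 4) (2:Fin 3) = 2 := rfl
  simp only [h1, h2, h3, a00, a01, a02, a10, a11, a12, a20, a21, a22, a30, a31, a32]
  simp [pow_succ]
  ring

lemma det_eq_pf_sq {A : Matrix (Fin 4) (Fin 4) ℝ} (hA : Aᵀ = -A) : A.det = (pf A) ^ 2 := by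
  have h10 := anti_entry hA 0 1
  have h20 := anti_entry hA 0 2
  have h30 := anti_entry hA 0 3
  have h21 := anti_entry hA 1 2
  have h31 := anti_entry hA 1 3
  have h32 := anti_entry hA 2 3
  have h00 := anti_diag hA 0
  have h11 := anti_diag hA 1
  have h22 := anti_diag hA 2
  have h33 := anti_diag hA 3
  rw [det_four]
  simp only [pf, h10, h20, h30, h21, h31, h32, h00, h11, h22, h33]
  ring

lemma pf_congr (P : Matrix (Fin 4) (Fin 4) ℝ) {A : Matrix (Fin 4) (Fin 4) ℝ} (hA : Aᵀ = -A) :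
    pf (Pᵀ * A * P) = P.det * pf A := by
  have h10 := anti_entry hA 0 1
  have h20 := anti_entry hA 0 2
  have h30 := anti_entry hA 0 3
  have h21 := anti_entry hA 1 2
  have h31 := anti_entry hA 1 3
  have h32 := anti_entry hA 2 3
  have h00 := anti_diag hA 0
  have h11 := anti_diag hA 1
  have h22 := anti_diag hA 2
  have h33 := anti_diag hA 3
  rw [det_four]
  simp only [pf, Matrix.mul_apply, Matrix.transpose_apply, Fin.sum_univ_four, h10, h20, h30, h21,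
    h31, h32, h00, h11, h22, h33]
  ring

lemma wedge_congr (P : Matrix (Fin 4) (Fin 4) ℝ) {A B : Matrix (Fin 4) (Fin 4) ℝ}
    (hA : Aᵀ = -A) (hB : Bᵀ = -B) :
    wedge (Pᵀ * A * P) (Pᵀ * B * P) = P.det * wedge A B := by
  have hAB : (A + B)ᵀ = -(A + B) := by
    rw [Matrix.transpose_add, hA, hB, neg_add]
  have h := pf_congr P hAB
  rw [Matrix.mul_add, Matrix.add_mul, pf_add, pf_add, pf_congr P hA, pf_congr P hB] at h
  linarith

/-! ### the value `θ(v, J v)` -/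

lemma qf_add (A B J : Matrix (Fin 4) (Fin 4) ℝ) (v : Fin 4 → ℝ) :
    qf (A + B) J v = qf A J v + qf B J v := by
  simp only [qf, Matrix.add_mulVec, dotProduct_add]

lemma qf_sub (A B J : Matrix (Fin 4) (Fin 4) ℝ) (v : Fin 4 → ℝ) :
    qf (A - B) J v = qf A J v - qf B J v := by
  simp only [qf, Matrix.sub_mulVec, dotProduct_sub]

lemma qf_smul (c : ℝ) (A J : Matrix (Fin 4) (Fin 4) ℝ) (v : Fin 4 → ℝ) :
    qf (c • A) J v = c * qf A J v := by
  simp only [qf, Matrix.smul_mulVec, dotProduct_smul, smul_eq_mul]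

lemma qf_neg (A J : Matrix (Fin 4) (Fin 4) ℝ) (v : Fin 4 → ℝ) :
    qf (-A) J v = - qf A J v := by
  simp only [qf, Matrix.neg_mulVec, dotProduct_neg]

lemma qf_eq (A J : Matrix (Fin 4) (Fin 4) ℝ) (v : Fin 4 → ℝ) : qf A J v = v ⬝ᵥ ((A * J) *ᵥ v) := by
  simp only [qf, Matrix.mulVec_mulVec]

lemma dot_transpose (M : Matrix (Fin 4) (Fin 4) ℝ) (v : Fin 4 → ℝ) :
    v ⬝ᵥ (Mᵀ *ᵥ v) = v ⬝ᵥ (M *ᵥ v) := by
  rw [Matrix.mulVec_transpose, dotProduct_comm, Matrix.dotProduct_mulVec]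

section J
variable {J : Matrix (Fin 4) (Fin 4) ℝ} (hJ2 : J * J = -1)
include hJ2

lemma transpose_sq : Jᵀ * Jᵀ = -1 := by
  rw [← Matrix.transpose_mul, hJ2]; simp

/-- Anti-invariant forms vanish on `(v, J v)`. -/
lemma qf_anti {a : Matrix (Fin 4) (Fin 4) ℝ} (ha : aᵀ = -a) (haJ : Jᵀ * a * J = -a)
    (v : Fin 4 → ℝ) : qf a J v = 0 := by
  have h1 : Jᵀ * a = a * J := by
    have := congrArg (fun X => X * J) haJ
    simp only [Matrix.mul_assoc, hJ2] at this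
    simpa using this
  have h2 : (a * J)ᵀ = -(a * J) := by
    rw [Matrix.transpose_mul, ha, Matrix.mul_neg, h1]
  have h3 := dot_transpose (a * J) v
  rw [h2, Matrix.neg_mulVec, dotProduct_neg] at h3
  rw [qf_eq]
  linarith

lemma part11_inv (A : Matrix (Fin 4) (Fin 4) ℝ) : Jᵀ * part11 J A * J = part11 J A := by
  have h := transpose_sq hJ2
  have h1 : Jᵀ * (Jᵀ * A * J) * J = A := by
    calc Jᵀ * (Jᵀ * A * J) * J = (Jᵀ * Jᵀ) * A * (J * J) := by simp only [Matrix.mul_assoc]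
      _ = A := by rw [h, hJ2]; simp
  simp only [part11, Matrix.mul_smul, Matrix.smul_mul, Matrix.mul_add, Matrix.add_mul, h1]
  rw [add_comm]

lemma partAnti_anti (A : Matrix (Fin 4) (Fin 4) ℝ) : Jᵀ * partAnti J A * J = - partAnti J A := by
  have h := transpose_sq hJ2
  have h1 : Jᵀ * (Jᵀ * A * J) * J = A := by
    calc Jᵀ * (Jᵀ * A * J) * J = (Jᵀ * Jᵀ) * A * (J * J) := by simp only [Matrix.mul_assoc]
      _ = A := by rw [h, hJ2]; simp
  simp only [partAnti, Matrix.mul_smul, Matrix.smul_mul, Matrix.mul_sub, Matrix.sub_mul, h1]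
  rw [← smul_neg, neg_sub]

omit hJ2 in
lemma part11_antisym {A : Matrix (Fin 4) (Fin 4) ℝ} (hA : Aᵀ = -A) :
    (part11 J A)ᵀ = - part11 J A := by
  simp only [part11, Matrix.transpose_smul, Matrix.transpose_add, Matrix.transpose_mul,
    Matrix.transpose_transpose, hA, Matrix.mul_neg, Matrix.neg_mul, ← smul_neg, neg_add]
  simp only [Matrix.mul_assoc]

omit hJ2 in
lemma partAnti_antisym {A : Matrix (Fin 4) (Fin 4) ℝ} (hA : Aᵀ = -A) :
    (partAnti J A)ᵀ = - partAnti J A := by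
  simp only [partAnti, Matrix.transpose_smul, Matrix.transpose_sub, Matrix.transpose_mul,
    Matrix.transpose_transpose, hA, Matrix.mul_neg, Matrix.neg_mul, ← smul_neg, neg_sub]
  simp only [Matrix.mul_assoc, sub_neg_eq_add]
  rw [add_comm, sub_eq_add_neg]

omit hJ2 in
lemma part_add (A : Matrix (Fin 4) (Fin 4) ℝ) : part11 J A + partAnti J A = A := by
  simp only [part11, partAnti, ← smul_add]
  have : A + Jᵀ * A * J + (A - Jᵀ * A * J) = (2 : ℝ) • A := by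
    rw [two_smul]; abel
  rw [this, smul_smul]; norm_num

lemma qf_part11 {A : Matrix (Fin 4) (Fin 4) ℝ} (hA : Aᵀ = -A) (v : Fin 4 → ℝ) :
    qf (part11 J A) J v = qf A J v := by
  have h := qf_anti hJ2 (partAnti_antisym hA) (partAnti_anti hJ2 A) v
  conv_rhs => rw [← part_add (J := J) A]
  rw [qf_add, h, add_zero]

/-- A form taming `J` has nonvanishing Pfaffian. -/
lemma pf_ne_zero_of_tame {X : Matrix (Fin 4) (Fin 4) ℝ} (hX : Xᵀ = -X)
    (ht : ∀ v : Fin 4 → ℝ, v ≠ 0 → 0 < qf X J v) : pf X ≠ 0 := by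
  intro h0
  have hdet : X.det = 0 := by rw [det_eq_pf_sq hX, h0]; norm_num
  obtain ⟨w, hw, hXw⟩ := Matrix.exists_mulVec_eq_zero_iff.mpr hdet
  have hJJ : ∀ u : Fin 4 → ℝ, J *ᵥ (J *ᵥ u) = -u := by
    intro u
    rw [Matrix.mulVec_mulVec, hJ2, Matrix.neg_mulVec, Matrix.one_mulVec]
  have hv : (-(J *ᵥ w)) ≠ 0 := by
    intro h
    apply hw
    have h1 : J *ᵥ w = 0 := neg_eq_zero.mp h
    have h2 := hJJ w
    rw [h1, Matrix.mulVec_zero] at h2
    exact neg_eq_zero.mp h2.symm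
  have h3 := ht _ hv
  have h4 : J *ᵥ (-(J *ᵥ w)) = w := by
    rw [Matrix.mulVec_neg, hJJ, neg_neg]
  simp only [qf, h4, hXw, dotProduct_zero] at h3
  exact lt_irrefl _ h3

lemma det_eq_one_of_tame {ω : Matrix (Fin 4) (Fin 4) ℝ} (hω : ωᵀ = -ω) (hinv : Jᵀ * ω * J = ω)
    (ht : ∀ v : Fin 4 → ℝ, v ≠ 0 → 0 < qf ω J v) : J.det = 1 := by
  have h := pf_congr J hω
  rw [hinv] at h
  have h0 := pf_ne_zero_of_tame hJ2 hω ht
  have : (J.det - 1) * pf ω = 0 := by linarith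
  rcases mul_eq_zero.mp this with h1 | h1
  · linarith
  · exact absurd h1 h0

omit hJ2 in
/-- Anti-invariant and invariant forms are wedge-orthogonal. -/
lemma wedge_anti_inv (hdet : J.det = 1) {a T : Matrix (Fin 4) (Fin 4) ℝ}
    (ha : aᵀ = -a) (hT : Tᵀ = -T) (haJ : Jᵀ * a * J = -a) (hTJ : Jᵀ * T * J = T) :
    wedge a T = 0 := by
  have h := wedge_congr J ha hT
  rw [haJ, hTJ, hdet, one_mul, wedge_neg_left] at h
  linarith

end J

/-! ### signs -/

section Signs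

variable {J ω : Matrix (Fin 4) (Fin 4) ℝ} {sg : ℝ}

lemma real_limit_aux {c b d : ℝ} (h : ∀ ε : ℝ, 0 < ε → 0 < c + ε * b + ε ^ 2 * d) : 0 ≤ c := by
  by_contra hc
  push Not at hc
  set N := |b| + |d| + 1 with hN
  have hNpos : 0 < N := by positivity
  set ε := min 1 (-c / N) with hε
  have hε0 : 0 < ε := lt_min one_pos (div_pos (by linarith) hNpos)
  have hε1 : ε ≤ 1 := min_le_left _ _
  have hε2 : ε * N ≤ -c := by
    have : ε ≤ -c / N := min_le_right _ _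
    calc ε * N ≤ (-c / N) * N := by gcongr
      _ = -c := by field_simp
  have h1 := h ε hε0
  have hb : b ≤ |b| := le_abs_self b
  have hd : d ≤ |d| := le_abs_self d
  have hd0 : 0 ≤ |d| := abs_nonneg d
  have h2 : ε * b ≤ ε * |b| := by gcongr
  have h3 : ε ^ 2 * d ≤ ε * |d| := by
    have : ε ^ 2 * d ≤ ε ^ 2 * |d| := by gcongr
    have h4 : ε ^ 2 * |d| ≤ ε * |d| := by
      have : ε ^ 2 ≤ ε := by nlinarith
      gcongr
    linarith
  have h5 : ε * N = ε * |b| + ε * |d| + ε := by rw [hN]; ring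
  linarith

lemma sign_of_tame (hJ2 : J * J = -1) (hω : ωᵀ = -ω)
    (ht : ∀ v : Fin 4 → ℝ, v ≠ 0 → 0 < qf ω J v) (hsg : 0 < sg * pf ω)
    {X : Matrix (Fin 4) (Fin 4) ℝ} (hX : Xᵀ = -X)
    (hXt : ∀ v : Fin 4 → ℝ, v ≠ 0 → 0 < qf X J v) : 0 < sg * pf X := by
  by_contra hneg
  push Not at hneg
  have hsg0 : sg ≠ 0 := by
    rintro rfl
    simp at hsg
  -- the path
  set g : ℝ → ℝ := fun t => sg * pf (t • X + (1 - t) • ω) with hg
  have hgc : Continuous g := by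
    simp only [hg, pf, Matrix.add_apply, Matrix.smul_apply, smul_eq_mul]
    fun_prop
  have hg0 : g 0 = sg * pf ω := by simp [hg]
  have hg1 : g 1 = sg * pf X := by simp [hg]
  have hmem : (0 : ℝ) ∈ Set.Icc (g 1) (g 0) := ⟨by rw [hg1]; exact hneg, by rw [hg0]; exact hsg.le⟩
  obtain ⟨t, ht01, hgt⟩ := intermediate_value_Icc' (zero_le_one) hgc.continuousOn hmem
  have hanti : (t • X + (1 - t) • ω)ᵀ = -(t • X + (1 - t) • ω) := by
    rw [Matrix.transpose_add, Matrix.transpose_smul, Matrix.transpose_smul, hX, hω, neg_add,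
      smul_neg, smul_neg]
  have htame : ∀ v : Fin 4 → ℝ, v ≠ 0 → 0 < qf (t • X + (1 - t) • ω) J v := by
    intro v hv
    rw [qf_add, qf_smul, qf_smul]
    have h1 := ht v hv
    have h2 := hXt v hv
    rcases eq_or_lt_of_le ht01.1 with h0 | h0
    · rw [← h0]; simpa using h1
    · have : 0 ≤ (1 - t) * qf ω J v := mul_nonneg (by linarith [ht01.2]) h1.le
      have : 0 < t * qf X J v := mul_pos h0 h2
      linarith
  have := pf_ne_zero_of_tame hJ2 hanti htame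
  exact (mul_ne_zero hsg0 this) hgt

lemma sign_of_anti (hJ2 : J * J = -1) (hω : ωᵀ = -ω) (hinv : Jᵀ * ω * J = ω)
    (ht : ∀ v : Fin 4 → ℝ, v ≠ 0 → 0 < qf ω J v) (hsg : 0 < sg * pf ω)
    {a : Matrix (Fin 4) (Fin 4) ℝ} (ha : aᵀ = -a) (haJ : Jᵀ * a * J = -a) : 0 ≤ sg * pf a := by
  have hdet := det_eq_one_of_tame hJ2 hω hinv ht
  have hw : wedge ω a = 0 := by
    rw [wedge_comm]; exact wedge_anti_inv hdet ha hω haJ hinv
  by_contra hneg
  push Not at hneg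
  -- choose `s` with `pf (ω + s a) = 0`
  have hq : 0 < sg * pf ω / -(sg * pf a) := div_pos hsg (by linarith)
  set s := Real.sqrt (sg * pf ω / -(sg * pf a)) with hs
  have hs2 : s ^ 2 = sg * pf ω / -(sg * pf a) := Real.sq_sqrt hq.le
  have hanti : (ω + s • a)ᵀ = -(ω + s • a) := by
    rw [Matrix.transpose_add, Matrix.transpose_smul, hω, ha, neg_add, smul_neg]
  have htame : ∀ v : Fin 4 → ℝ, v ≠ 0 → 0 < qf (ω + s • a) J v := by
    intro v hv
    rw [qf_add, qf_smul, qf_anti hJ2 ha haJ v, mul_zero, add_zero]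
    exact ht v hv
  have h1 := sign_of_tame hJ2 hω ht hsg hanti htame
  rw [pf_add, wedge_smul_right, hw, pf_smul, mul_zero, add_zero, mul_add] at h1
  have h2 : sg * (s ^ 2 * pf a) = s ^ 2 * (sg * pf a) := by ring
  rw [h2, hs2] at h1
  have h3 : sg * pf ω / -(sg * pf a) * (sg * pf a) = - (sg * pf ω) := by
    have hc : sg * pf a ≠ 0 := ne_of_lt hneg
    generalize sg * pf a = c at hc ⊢
    generalize sg * pf ω = x
    field_simp
  rw [h3] at h1
  linarith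

lemma sign_of_nonneg (hJ2 : J * J = -1) (hω : ωᵀ = -ω)
    (ht : ∀ v : Fin 4 → ℝ, v ≠ 0 → 0 < qf ω J v) (hsg : 0 < sg * pf ω)
    {T : Matrix (Fin 4) (Fin 4) ℝ} (hT : Tᵀ = -T) (hTn : ∀ v : Fin 4 → ℝ, 0 ≤ qf T J v) :
    0 ≤ sg * pf T := by
  apply real_limit_aux (b := sg * wedge T ω) (d := sg * pf ω)
  intro ε hε
  have hanti : (T + ε • ω)ᵀ = -(T + ε • ω) := by
    rw [Matrix.transpose_add, Matrix.transpose_smul, hT, hω, neg_add, smul_neg]
  have htame : ∀ v : Fin 4 → ℝ, v ≠ 0 → 0 < qf (T + ε • ω) J v := by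
    intro v hv
    rw [qf_add, qf_smul]
    have := hTn v
    have := mul_pos hε (ht v hv)
    linarith
  have h1 := sign_of_tame hJ2 hω ht hsg hanti htame
  rw [pf_add, wedge_smul_right, pf_smul] at h1
  linarith

/-! ### mass positivity -/

lemma mul_dual {A : Matrix (Fin 4) (Fin 4) ℝ} (hA : Aᵀ = -A) : A * dual A = (- pf A) • 1 := by
  have h10 := anti_entry hA 0 1
  have h20 := anti_entry hA 0 2
  have h30 := anti_entry hA 0 3
  have h21 := anti_entry hA 1 2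
  have h31 := anti_entry hA 1 3
  have h32 := anti_entry hA 2 3
  have h00 := anti_diag hA 0
  have h11 := anti_diag hA 1
  have h22 := anti_diag hA 2
  have h33 := anti_diag hA 3
  ext i j
  fin_cases i <;> fin_cases j <;>
    simp [Matrix.mul_apply, Fin.sum_univ_four, dual, pf, h10, h20, h30, h21, h31, h32, h00, h11,
      h22, h33] <;> ring

lemma trace_mul_dual {T A : Matrix (Fin 4) (Fin 4) ℝ} (hT : Tᵀ = -T) :
    (T * dual A).trace = - 2 * wedge T A := by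
  have h10 := anti_entry hT 0 1
  have h20 := anti_entry hT 0 2
  have h30 := anti_entry hT 0 3
  have h21 := anti_entry hT 1 2
  have h31 := anti_entry hT 1 3
  have h32 := anti_entry hT 2 3
  simp [Matrix.trace, Matrix.mul_apply, Fin.sum_univ_four, dual, wedge, h10, h20, h30, h21, h31,
    h32]
  ring

open scoped MatrixOrder in
lemma trace_mul_nonneg {S P : Matrix (Fin 4) (Fin 4) ℝ} (hS : S.PosSemidef) (hP : P.PosSemidef) :
    0 ≤ (S * P).trace := by
  have hS0 : 0 ≤ S := hS.nonneg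
  have hB : (CFC.sqrt S) * (CFC.sqrt S) = S := CFC.sqrt_mul_sqrt_self S hS0
  have hBh : (CFC.sqrt S)ᴴ = CFC.sqrt S := (CFC.sqrt_nonneg S).posSemidef.isHermitian
  have h := (hP.mul_mul_conjTranspose_same (CFC.sqrt S)).trace_nonneg
  rw [hBh, Matrix.trace_mul_comm, ← Matrix.mul_assoc, hB] at h
  exact h

lemma sign_wedge (hJ2 : J * J = -1) (hω : ωᵀ = -ω) (hinv : Jᵀ * ω * J = ω)
    (ht : ∀ v : Fin 4 → ℝ, v ≠ 0 → 0 < qf ω J v) (hsg : 0 < sg * pf ω)
    {T : Matrix (Fin 4) (Fin 4) ℝ} (hT : Tᵀ = -T) (hTJ : Jᵀ * T * J = T)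
    (hTn : ∀ v : Fin 4 → ℝ, 0 ≤ qf T J v) : 0 ≤ sg * wedge T ω := by
  have hsymm : ∀ {A : Matrix (Fin 4) (Fin 4) ℝ}, Aᵀ = -A → Jᵀ * A * J = A →
      (A * J).IsHermitian := by
    intro A hA hAJ
    have h1 : Jᵀ * A = - (A * J) := by
      have := congrArg (fun X => X * J) hAJ
      simp only [Matrix.mul_assoc, hJ2] at this
      rw [← Matrix.mul_assoc] at this
      have h2 : Jᵀ * A * -1 = A * J := by simpa using this
      rw [← h2]; simp
    unfold Matrix.IsHermitian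
    rw [Matrix.conjTranspose_eq_transpose_of_trivial, Matrix.transpose_mul, hA, Matrix.mul_neg, h1,
      neg_neg]
  have hS0 : (ω * J).PosDef := by
    apply Matrix.PosDef.of_dotProduct_mulVec_pos (hsymm hω hinv)
    intro v hv
    rw [star_trivial, ← qf_eq]
    exact ht v hv
  have hS : (T * J).PosSemidef := by
    apply Matrix.PosSemidef.of_dotProduct_mulVec_nonneg (hsymm hT hTJ)
    intro v
    rw [star_trivial, ← qf_eq]
    exact hTn v
  have hpf := pf_ne_zero_of_tame hJ2 hω ht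
  set Q := J * dual ω with hQ
  have h1 : (ω * J) * Q = pf ω • 1 := by
    rw [hQ, Matrix.mul_assoc, ← Matrix.mul_assoc J, hJ2, Matrix.neg_mul, Matrix.one_mul,
      Matrix.mul_neg, mul_dual hω]
    simp
  have h2 : (ω * J)⁻¹ = (pf ω)⁻¹ • Q := by
    apply Matrix.inv_eq_right_inv
    rw [Matrix.mul_smul, h1, smul_smul, inv_mul_cancel₀ hpf, one_smul]
  have h3 : ((T * J) * Q).trace = 2 * wedge T ω := by
    rw [hQ, Matrix.mul_assoc, ← Matrix.mul_assoc J, hJ2, Matrix.neg_mul, Matrix.one_mul,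
      Matrix.mul_neg, Matrix.trace_neg, trace_mul_dual hT]
    ring
  have h4 := trace_mul_nonneg hS hS0.inv.posSemidef
  rw [h2, Matrix.mul_smul, Matrix.trace_smul, h3, smul_eq_mul] at h4
  -- `h4 : 0 ≤ (pf ω)⁻¹ * (2 * wedge T ω)`
  have h5 : sg * wedge T ω = (1 / 2) * ((sg * pf ω) * ((pf ω)⁻¹ * (2 * wedge T ω))) := by
    field_simp
  rw [h5]
  positivity

end Signs

end Vale.Agent.Lib.P204.Cur
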