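import Mathlib

open scoped ContDiff
open MeasureTheory Set

namespace Vale.Agent.Lib.P204

/-- Divergence theorem for one partial derivative of a periodic function: it integrates to zero
over a box of side one in that direction. -/
lemma integral_partial_eq_zero_of_periodic {F : (Fin 4 → ℝ) → ℝ} (hF : ContDiff ℝ ∞ F) (l : Fin 4)
    (hper : ∀ x, F (x + Pi.single l 1) = F x) (a b : Fin 4 → ℝ) (hle : a ≤ b) (hab : b l = a l + 1) :
    (∫ x in Icc a b, fderiv ℝ F x (Pi.single l 1)) = 0 := by
  classical
  have hd : ∀ x, HasFDerivAt F (fderiv ℝ F x) x := fun x =>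
    (hF.differentiable (by simp) x).hasFDerivAt
  have hcont : Continuous (fun x => fderiv ℝ F x (Pi.single l 1)) := by
    have : ContDiff ℝ ∞ (fderiv ℝ F) := hF.fderiv_right (m := ∞) (by simp)
    exact this.continuous.clm_apply continuous_const
  have key := integral_divergence_of_hasFDerivAt_off_countable' (n := 3) a b hle
    (fun i => if i = l then F else fun _ => 0)
    (fun i x => if i = l then fderiv ℝ F x else 0) ∅ countable_empty
    (by
      intro i
      by_cases h : i = l
      · simp only [h, if_true]; exact hF.continuous.continuousOn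
      · simp only [h, if_false]; exact continuousOn_const)
    (by
      intro x _ i
      by_cases h : i = l
      · simp only [h, if_true]; exact hd x
      · simp only [h, if_false]; exact hasFDerivAt_const _ _)
    (by
      have : (fun x => ∑ i, (if i = l then fderiv ℝ F x else 0 : (Fin 4 → ℝ) →L[ℝ] ℝ) (Pi.single i 1))
          = fun x => fderiv ℝ F x (Pi.single l 1) := by
        funext x
        rw [Finset.sum_eq_single l]
        · simp
        · intro i _ hi; simp [hi]
        · simp
      rw [this]
      exact hcont.continuousOn.integrableOn_compact isCompact_Icc)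
  have lhs : (fun x => ∑ i, (if i = l then fderiv ℝ F x else 0 : (Fin 4 → ℝ) →L[ℝ] ℝ) (Pi.single i 1))
      = fun x => fderiv ℝ F x (Pi.single l 1) := by
    funext x
    rw [Finset.sum_eq_single l]
    · simp
    · intro i _ hi; simp [hi]
    · simp
  simp only [lhs] at key
  rw [key]
  apply Finset.sum_eq_zero
  intro i _
  by_cases h : i = l
  · subst h
    simp only [if_true]
    have : ∀ y : Fin 3 → ℝ, F (Fin.insertNth (α := fun _ => ℝ) i (b i) y)
        = F (Fin.insertNth (α := fun _ => ℝ) i (a i) y) := by
      intro y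
      have e : Fin.insertNth (α := fun _ => ℝ) i (b i) y
          = Fin.insertNth (α := fun _ => ℝ) i (a i) y + Pi.single i 1 := by
        funext j
        rcases Fin.eq_self_or_eq_succAbove i j with hj | ⟨k, hk⟩
        · subst hj
          simp [hab]
        · subst hk
          simp
      rw [e, hper]
    simp only [this, sub_self]
  · simp [h]

/-- The fundamental theorem in the form of a flux difference in the direction `0`. -/
lemma integral_partial_zero_eq {F : (Fin 4 → ℝ) → ℝ} (hF : ContDiff ℝ ∞ F) (a b : Fin 4 → ℝ)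
    (hle : a ≤ b) :
    (∫ x in Icc a b, fderiv ℝ F x (Pi.single 0 1))
      = (∫ y in Icc (a ∘ Fin.succ) (b ∘ Fin.succ), F (Fin.cons (b 0) y))
        - ∫ y in Icc (a ∘ Fin.succ) (b ∘ Fin.succ), F (Fin.cons (a 0) y) := by
  classical
  have hd : ∀ x, HasFDerivAt F (fderiv ℝ F x) x := fun x =>
    (hF.differentiable (by simp) x).hasFDerivAt
  have hcont : Continuous (fun x => fderiv ℝ F x (Pi.single 0 1)) := by
    have : ContDiff ℝ ∞ (fderiv ℝ F) := hF.fderiv_right (m := ∞) (by simp)
    exact this.continuous.clm_apply continuous_const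
  have lhs : (fun x => ∑ i, (if i = (0 : Fin 4) then fderiv ℝ F x else 0 : (Fin 4 → ℝ) →L[ℝ] ℝ) (Pi.single i 1))
      = fun x => fderiv ℝ F x (Pi.single 0 1) := by
    funext x
    rw [Finset.sum_eq_single 0]
    · simp
    · intro i _ hi; simp [hi]
    · simp
  have key := integral_divergence_of_hasFDerivAt_off_countable' (n := 3) a b hle
    (fun i => if i = (0 : Fin 4) then F else fun _ => 0)
    (fun i x => if i = (0 : Fin 4) then fderiv ℝ F x else 0) ∅ countable_empty
    (by
      intro i
      by_cases h : i = 0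
      · simp only [h, if_true]; exact hF.continuous.continuousOn
      · simp only [h, if_false]; exact continuousOn_const)
    (by
      intro x _ i
      by_cases h : i = 0
      · simp only [h, if_true]; exact hd x
      · simp only [h, if_false]; exact hasFDerivAt_const _ _)
    (by
      rw [lhs]
      exact hcont.continuousOn.integrableOn_compact isCompact_Icc)
  simp only [lhs] at key
  rw [key, Finset.sum_eq_single 0]
  · simp only [if_true]
    have e1 : (Fin.succAbove (0 : Fin 4)) = Fin.succ := by
      funext j; simp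
    have e2 : ∀ (t : ℝ) (y : Fin 3 → ℝ), Fin.insertNth (0 : Fin 4) t y = (Fin.cons t y : Fin 4 → ℝ) := by
      intro t y
      exact Fin.insertNth_zero' _ _
    simp only [e1, e2]
  · intro i _ hi
    simp [hi]
  · simp

/-- Constancy of the slice integral when a closed-form identity holds. -/
lemma slice_integral_const {F G H : (Fin 4 → ℝ) → ℝ} (hF : ContDiff ℝ ∞ F) (hG : ContDiff ℝ ∞ G)
    (hH : ContDiff ℝ ∞ H) {l m : Fin 4} (hl : l ≠ 0) (hm : m ≠ 0)
    (pG : ∀ x, G (x + Pi.single l 1) = G x) (pH : ∀ x, H (x + Pi.single m 1) = H x)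
    (hclosed : ∀ x, fderiv ℝ F x (Pi.single 0 1) + fderiv ℝ G x (Pi.single l 1)
      + fderiv ℝ H x (Pi.single m 1) = 0) (t₁ t₂ : ℝ) (ht : t₁ ≤ t₂) :
    (∫ y in Icc (0 : Fin 3 → ℝ) 1, F (Fin.cons t₂ y)) = ∫ y in Icc (0 : Fin 3 → ℝ) 1, F (Fin.cons t₁ y) := by
  classical
  let a : Fin 4 → ℝ := Fin.cons t₁ 0
  let b : Fin 4 → ℝ := Fin.cons t₂ 1
  have hle : a ≤ b := by
    intro i
    refine Fin.cases ?_ (fun j => ?_) i
    · simpa [a, b] using ht
    · simp [a, b]
  have ha0 : a 0 = t₁ := rfl
  have hb0 : b 0 = t₂ := rfl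
  have hasucc : a ∘ Fin.succ = 0 := by funext j; simp [a]
  have hbsucc : b ∘ Fin.succ = 1 := by funext j; simp [b]
  have hunit : ∀ k : Fin 4, k ≠ 0 → b k = a k + 1 := by
    intro k hk
    obtain ⟨j, rfl⟩ := Fin.exists_succ_eq.mpr hk
    simp [a, b]
  have h1 := integral_partial_zero_eq hF a b hle
  rw [hasucc, hbsucc, ha0, hb0] at h1
  have h2 := integral_partial_eq_zero_of_periodic hG l pG a b hle (hunit l hl)
  have h3 := integral_partial_eq_zero_of_periodic hH m pH a b hle (hunit m hm)
  have ci : ∀ {K : (Fin 4 → ℝ) → ℝ} (_ : ContDiff ℝ ∞ K) (k : Fin 4),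
      IntegrableOn (fun x => fderiv ℝ K x (Pi.single k 1)) (Icc a b) := by
    intro K hK k
    have : ContDiff ℝ ∞ (fderiv ℝ K) := hK.fderiv_right (m := ∞) (by simp)
    exact (this.continuous.clm_apply continuous_const).continuousOn.integrableOn_compact isCompact_Icc
  have hsum : (∫ x in Icc a b, (fderiv ℝ F x (Pi.single 0 1) + fderiv ℝ G x (Pi.single l 1)
      + fderiv ℝ H x (Pi.single m 1))) = 0 := by
    simp only [hclosed]
    simp
  have i12 : IntegrableOn (fun x => fderiv ℝ F x (Pi.single 0 1) + fderiv ℝ G x (Pi.single l 1))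
      (Icc a b) := (ci hF 0).add (ci hG l)
  rw [integral_add i12 (ci hH m), integral_add (ci hF 0) (ci hG l), h2, h3, h1] at hsum
  linarith

/-- Slice integrals of positive continuous functions are positive. -/
lemma slice_integral_pos {G : (Fin 3 → ℝ) → ℝ} (hG : Continuous G) (hpos : ∀ y, 0 < G y) :
    0 < ∫ y in Icc (0 : Fin 3 → ℝ) 1, G y := by
  have hi : IntegrableOn G (Icc (0 : Fin 3 → ℝ) 1) := hG.continuousOn.integrableOn_compact isCompact_Icc
  rw [setIntegral_pos_iff_support_of_nonneg_ae _ hi]
  · have hs : Function.support G = univ := by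
      ext y
      simp [(hpos y).ne']
    rw [hs, univ_inter, Real.volume_Icc_pi]
    simp
  · exact Filter.Eventually.of_forall (fun y => (hpos y).le)

end Vale.Agent.Lib.P204
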