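import Mathlib
import Vale.Agent.Lib.P204.CurAlg
import Vale.Agent.Lib.P204.Slices

open Matrix MeasureTheory Set
open scoped ContDiff

namespace Vale.Agent.Lib.P204.Cur

lemma fderiv_prod3 {a b p q r s : (Fin 4 → ℝ) → ℝ} (c1 c2 c3 : ℝ)
    (ha : ContDiff ℝ ∞ a) (hb : ContDiff ℝ ∞ b) (hp : ContDiff ℝ ∞ p) (hq : ContDiff ℝ ∞ q)
    (hr : ContDiff ℝ ∞ r) (hs : ContDiff ℝ ∞ s) (x v : Fin 4 → ℝ) :
    fderiv ℝ (fun z => c1 * (a z * b z) + c2 * (p z * q z) + c3 * (r z * s z)) x v =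
      c1 * (a x * fderiv ℝ b x v + b x * fderiv ℝ a x v)
      + c2 * (p x * fderiv ℝ q x v + q x * fderiv ℝ p x v)
      + c3 * (r x * fderiv ℝ s x v + s x * fderiv ℝ r x v) := by
  have d : ∀ {f : (Fin 4 → ℝ) → ℝ}, ContDiff ℝ ∞ f → HasFDerivAt f (fderiv ℝ f x) x :=
    fun hf => (hf.differentiable (by simp) x).hasFDerivAt
  have h := (((d ha).mul (d hb)).const_mul c1).add (((d hp).mul (d hq)).const_mul c2)
    |>.add (((d hr).mul (d hs)).const_mul c3)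
  have h2 := h.fderiv
  have : (fun z => c1 * (a z * b z) + c2 * (p z * q z) + c3 * (r z * s z))
      = ((fun y => c1 * (a * b) y) + (fun y => c2 * (p * q) y)) + (fun y => c3 * (r * s) y) := by
    funext z; simp
  rw [this, h2]
  simp [smul_eq_mul]
  ring

lemma mixed_comm {f : (Fin 4 → ℝ) → ℝ} (hf : ContDiff ℝ ∞ f) (x v w : Fin 4 → ℝ) :
    fderiv ℝ (fun q => fderiv ℝ f q w) x v = fderiv ℝ (fun q => fderiv ℝ f q v) x w := by
  have hsymm : IsSymmSndFDerivAt ℝ f x :=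
    (hf.contDiffAt).isSymmSndFDerivAt (by
      simp only [minSmoothness_of_isRCLikeNormedField]
      norm_cast)
  have hdiff : HasFDerivAt (fderiv ℝ f) (fderiv ℝ (fderiv ℝ f) x) x := by
    have h : ContDiff ℝ ∞ (fderiv ℝ f) := hf.fderiv_right (m := ∞) (by simp)
    exact (h.differentiable (by simp) x).hasFDerivAt
  have h1 : ∀ v w : Fin 4 → ℝ,
      fderiv ℝ (fun q => fderiv ℝ f q w) x v = fderiv ℝ (fderiv ℝ f) x v w := by
    intro v w
    have := hdiff.clm_apply (hasFDerivAt_const w x)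
    rw [this.fderiv]
    simp
  rw [h1, h1]
  exact hsymm _ _

lemma partial_smooth {f : (Fin 4 → ℝ) → ℝ} (hf : ContDiff ℝ ∞ f) (w : Fin 4 → ℝ) :
    ContDiff ℝ ∞ (fun q => fderiv ℝ f q w) := by
  have h : ContDiff ℝ ∞ (fderiv ℝ f) := hf.fderiv_right (m := ∞) (by simp)
  exact h.clm_apply contDiff_const

/-- `dOne S` is closed. -/
lemma closed_dOne {S : (Fin 4 → ℝ) → Fin 4 → ℝ} (hS : ∀ i, ContDiff ℝ ∞ (fun x => S x i)) :
    IsClosedForm (dOne S) := by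
  intro x i j k
  have e : ∀ (a b c : Fin 4), fderiv ℝ (fun z => dOne S z b c) x (Pi.single a 1)
      = fderiv ℝ (fun z => fderiv ℝ (fun y => S y c) z (Pi.single b 1)) x (Pi.single a 1)
        - fderiv ℝ (fun z => fderiv ℝ (fun y => S y b) z (Pi.single c 1)) x (Pi.single a 1) := by
    intro a b c
    have h1 := ((partial_smooth (hS c) (Pi.single b 1)).differentiable (by simp) x).hasFDerivAt
    have h2 := ((partial_smooth (hS b) (Pi.single c 1)).differentiable (by simp) x).hasFDerivAt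
    have h3 := (h1.sub h2).fderiv
    have : (fun z => dOne S z b c)
        = (fun z => fderiv ℝ (fun y => S y c) z (Pi.single b 1))
          - (fun z => fderiv ℝ (fun y => S y b) z (Pi.single c 1)) := by
      funext z; simp [dOne]
    rw [this, h3]
    simp
  rw [e, e, e]
  rw [mixed_comm (hS k) x (Pi.single i 1) (Pi.single j 1),
    mixed_comm (hS j) x (Pi.single i 1) (Pi.single k 1),
    mixed_comm (hS i) x (Pi.single j 1) (Pi.single k 1)]
  ring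

lemma partial_neg_entry {θ : (Fin 4 → ℝ) → Matrix (Fin 4) (Fin 4) ℝ}
    (hθa : ∀ x, (θ x)ᵀ = -θ x) (i j l : Fin 4) (x : Fin 4 → ℝ) :
    fderiv ℝ (fun z => θ z j i) x (Pi.single l 1) = - fderiv ℝ (fun z => θ z i j) x (Pi.single l 1) := by
  have : (fun z => θ z j i) = fun z => - θ z i j := by
    funext z
    exact anti_entry (hθa z) i j
  rw [this, fderiv_fun_neg]
  simp

lemma integrableOn_partial {F : (Fin 4 → ℝ) → ℝ} (hF : ContDiff ℝ ∞ F) (w : Fin 4 → ℝ) :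
    IntegrableOn (fun x => fderiv ℝ F x w) (Icc (0 : Fin 4 → ℝ) 1) :=
  (partial_smooth hF w).continuous.continuousOn.integrableOn_compact isCompact_Icc

lemma integral_partial_zero {F : (Fin 4 → ℝ) → ℝ} (hF : ContDiff ℝ ∞ F) (l : Fin 4)
    (hper : ∀ x, F (x + Pi.single l 1) = F x) :
    (∫ x in Icc (0 : Fin 4 → ℝ) 1, fderiv ℝ F x (Pi.single l 1)) = 0 :=
  integral_partial_eq_zero_of_periodic hF l hper 0 1 (fun _ => zero_le_one) (by simp)

/-- Stokes: an exact form wedged with a closed form integrates to zero. -/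
theorem stokes_wedge {S : (Fin 4 → ℝ) → Fin 4 → ℝ} {θ : (Fin 4 → ℝ) → Matrix (Fin 4) (Fin 4) ℝ}
    (hS : ∀ i, ContDiff ℝ ∞ (fun x => S x i))
    (hSp : ∀ (k : Fin 4) x, S (x + Pi.single k 1) = S x)
    (hθs : ∀ i j, ContDiff ℝ ∞ (fun x => θ x i j))
    (hθp : ∀ (k : Fin 4) x, θ (x + Pi.single k 1) = θ x)
    (hθa : ∀ x, (θ x)ᵀ = -θ x)
    (hθc : IsClosedForm θ) :
    (∫ x in Icc (0 : Fin 4 → ℝ) 1, wedge (dOne S x) (θ x)) = 0 := by
  set V0 : (Fin 4 → ℝ) → ℝ := fun z =>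
    1 * (S z 1 * θ z 2 3) + (-1) * (S z 2 * θ z 1 3) + 1 * (S z 3 * θ z 1 2) with hV0
  set V1 : (Fin 4 → ℝ) → ℝ := fun z =>
    (-1) * (S z 0 * θ z 2 3) + 1 * (S z 2 * θ z 0 3) + (-1) * (S z 3 * θ z 0 2) with hV1
  set V2 : (Fin 4 → ℝ) → ℝ := fun z =>
    1 * (S z 0 * θ z 1 3) + (-1) * (S z 1 * θ z 0 3) + 1 * (S z 3 * θ z 0 1) with hV2
  set V3 : (Fin 4 → ℝ) → ℝ := fun z =>
    (-1) * (S z 0 * θ z 1 2) + 1 * (S z 1 * θ z 0 2) + (-1) * (S z 2 * θ z 0 1) with hV3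
  have sm : ∀ (c1 c2 c3 : ℝ) (a b c d e f : (Fin 4 → ℝ) → ℝ), ContDiff ℝ ∞ a → ContDiff ℝ ∞ b →
      ContDiff ℝ ∞ c → ContDiff ℝ ∞ d → ContDiff ℝ ∞ e → ContDiff ℝ ∞ f →
      ContDiff ℝ ∞ (fun z => c1 * (a z * b z) + c2 * (c z * d z) + c3 * (e z * f z)) := by
    intro c1 c2 c3 a b c d e f ha hb hc hd he hf
    exact ((contDiff_const.mul (ha.mul hb)).add (contDiff_const.mul (hc.mul hd))).add
      (contDiff_const.mul (he.mul hf))
  have hV0s : ContDiff ℝ ∞ V0 := sm _ _ _ _ _ _ _ _ _ (hS _) (hθs _ _) (hS _) (hθs _ _) (hS _) (hθs _ _)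
  have hV1s : ContDiff ℝ ∞ V1 := sm _ _ _ _ _ _ _ _ _ (hS _) (hθs _ _) (hS _) (hθs _ _) (hS _) (hθs _ _)
  have hV2s : ContDiff ℝ ∞ V2 := sm _ _ _ _ _ _ _ _ _ (hS _) (hθs _ _) (hS _) (hθs _ _) (hS _) (hθs _ _)
  have hV3s : ContDiff ℝ ∞ V3 := sm _ _ _ _ _ _ _ _ _ (hS _) (hθs _ _) (hS _) (hθs _ _) (hS _) (hθs _ _)
  have pV0 : ∀ l x, V0 (x + Pi.single l 1) = V0 x := by
    intro l x; simp only [hV0, hSp, hθp]
  have pV1 : ∀ l x, V1 (x + Pi.single l 1) = V1 x := by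
    intro l x; simp only [hV1, hSp, hθp]
  have pV2 : ∀ l x, V2 (x + Pi.single l 1) = V2 x := by
    intro l x; simp only [hV2, hSp, hθp]
  have pV3 : ∀ l x, V3 (x + Pi.single l 1) = V3 x := by
    intro l x; simp only [hV3, hSp, hθp]
  have ptw : ∀ x, wedge (dOne S x) (θ x) =
      fderiv ℝ V0 x (Pi.single 0 1) + fderiv ℝ V1 x (Pi.single 1 1)
      + fderiv ℝ V2 x (Pi.single 2 1) + fderiv ℝ V3 x (Pi.single 3 1) := by
    intro x
    rw [hV0, hV1, hV2, hV3]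
    rw [fderiv_prod3 _ _ _ (hS _) (hθs _ _) (hS _) (hθs _ _) (hS _) (hθs _ _),
      fderiv_prod3 _ _ _ (hS _) (hθs _ _) (hS _) (hθs _ _) (hS _) (hθs _ _),
      fderiv_prod3 _ _ _ (hS _) (hθs _ _) (hS _) (hθs _ _) (hS _) (hθs _ _),
      fderiv_prod3 _ _ _ (hS _) (hθs _ _) (hS _) (hθs _ _) (hS _) (hθs _ _)]
    have c012 := hθc x 0 1 2
    have c013 := hθc x 0 1 3
    have c023 := hθc x 0 2 3
    have c123 := hθc x 1 2 3
    rw [partial_neg_entry hθa 0 2 1 x] at c012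
    rw [partial_neg_entry hθa 0 3 1 x] at c013
    rw [partial_neg_entry hθa 0 3 2 x] at c023
    rw [partial_neg_entry hθa 1 3 2 x] at c123
    simp only [wedge, dOne, Matrix.of_apply]
    linear_combination
      (S x 3) * c012 * (-1) + (S x 2) * c013 + (S x 1) * c023 * (-1) + (S x 0) * c123
  have hi0 := integrableOn_partial hV0s (Pi.single 0 1)
  have hi1 := integrableOn_partial hV1s (Pi.single 1 1)
  have hi2 := integrableOn_partial hV2s (Pi.single 2 1)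
  have hi3 := integrableOn_partial hV3s (Pi.single 3 1)
  simp_rw [ptw]
  have h01 : IntegrableOn (fun x => fderiv ℝ V0 x (Pi.single 0 1) + fderiv ℝ V1 x (Pi.single 1 1))
      (Icc (0 : Fin 4 → ℝ) 1) := hi0.add hi1
  have h012 : IntegrableOn (fun x => fderiv ℝ V0 x (Pi.single 0 1) + fderiv ℝ V1 x (Pi.single 1 1)
      + fderiv ℝ V2 x (Pi.single 2 1)) (Icc (0 : Fin 4 → ℝ) 1) := h01.add hi2
  rw [integral_add h012 hi3, integral_add h01 hi2,
    integral_add hi0 hi1, integral_partial_zero hV0s 0 (pV0 0), integral_partial_zero hV1s 1 (pV1 1),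
    integral_partial_zero hV2s 2 (pV2 2), integral_partial_zero hV3s 3 (pV3 3)]
  simp

end Vale.Agent.Lib.P204.Cur
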