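import Mathlib
import Vale.Agent.Lib.P204.CurStokes

open Matrix MeasureTheory Set
open scoped ContDiff

namespace Vale.Agent.Lib.P204.Cur

lemma int_periodic {α : Type*} {F : (Fin 4 → ℝ) → α}
    (hF : ∀ (k : Fin 4) x, F (x + Pi.single k 1) = F x) (k : Fin 4) (n : ℤ) (x : Fin 4 → ℝ) :
    F (x + n • Pi.single k 1) = F x := by
  induction n using Int.induction_on with
  | zero => simp
  | succ n ih =>
    rw [← ih, add_smul, one_smul, ← add_assoc, hF]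
  | pred n ih =>
    have e : x + (-(n:ℤ)) • (Pi.single k (1:ℝ) : Fin 4 → ℝ)
        = (x + (-(n:ℤ) - 1) • (Pi.single k (1:ℝ) : Fin 4 → ℝ)) + Pi.single k 1 := by
      rw [sub_smul, one_smul]; abel
    rw [← ih, e, hF]

lemma exists_rep {α : Type*} {F : (Fin 4 → ℝ) → α}
    (hF : ∀ (k : Fin 4) x, F (x + Pi.single k 1) = F x) (x : Fin 4 → ℝ) :
    ∃ y ∈ Icc (0 : Fin 4 → ℝ) 1, F x = F y := by
  refine ⟨fun i => Int.fract (x i), ⟨fun i => Int.fract_nonneg _, fun i => (Int.fract_lt_one _).le⟩, ?_⟩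
  have e : x = (fun i => Int.fract (x i)) + (⌊x 0⌋ • Pi.single 0 1) + (⌊x 1⌋ • Pi.single 1 1)
      + (⌊x 2⌋ • Pi.single 2 1) + (⌊x 3⌋ • Pi.single 3 1) := by
    funext i
    have := Int.fract_add_floor (x i)
    fin_cases i <;> simp
  conv_lhs => rw [e]
  rw [int_periodic hF, int_periodic hF, int_periodic hF, int_periodic hF]

/-- Entry bound of a continuous periodic matrix function. -/
lemma exists_entry_bound {A : (Fin 4 → ℝ) → Matrix (Fin 4) (Fin 4) ℝ} (hA : Continuous A)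
    (hAp : ∀ (k : Fin 4) x, A (x + Pi.single k 1) = A x) :
    ∃ K : ℝ, 0 ≤ K ∧ ∀ x i j, |A x i j| ≤ K := by
  have h1 : ∀ i j, ∃ K : ℝ, ∀ x ∈ Icc (0 : Fin 4 → ℝ) 1, ‖A x i j‖ ≤ K := by
    intro i j
    exact isCompact_Icc.exists_bound_of_continuousOn (hA.matrix_elem i j).continuousOn
  choose K hK using h1
  refine ⟨∑ i, ∑ j, |K i j|, by positivity, fun x i j => ?_⟩
  obtain ⟨y, hy, hxy⟩ := exists_rep hAp x
  rw [hxy]
  calc |A y i j| = ‖A y i j‖ := rfl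
    _ ≤ K i j := hK i j y hy
    _ ≤ |K i j| := le_abs_self _
    _ ≤ ∑ j, |K i j| := Finset.single_le_sum (f := fun j => |K i j|) (fun _ _ => abs_nonneg _) (Finset.mem_univ j)
    _ ≤ ∑ i, ∑ j, |K i j| := Finset.single_le_sum (f := fun i => ∑ j, |K i j|)
        (fun _ _ => Finset.sum_nonneg fun _ _ => abs_nonneg _) (Finset.mem_univ i)

lemma continuous_of_smooth {A : (Fin 4 → ℝ) → Matrix (Fin 4) (Fin 4) ℝ}
    (hA : ∀ i j, ContDiff ℝ ∞ (fun x => A x i j)) : Continuous A :=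
  continuous_matrix fun i j => (hA i j).continuous

lemma continuous_qf {θ J : (Fin 4 → ℝ) → Matrix (Fin 4) (Fin 4) ℝ} (hθ : Continuous θ)
    (hJ : Continuous J) :
    Continuous (fun p : (Fin 4 → ℝ) × (Fin 4 → ℝ) => qf (θ p.1) (J p.1) p.2) := by
  unfold qf
  have h1 : Continuous (fun p : (Fin 4 → ℝ) × (Fin 4 → ℝ) => θ p.1) := hθ.comp continuous_fst
  have h2 : Continuous (fun p : (Fin 4 → ℝ) × (Fin 4 → ℝ) => J p.1) := hJ.comp continuous_fst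
  exact continuous_snd.dotProduct (h1.matrix_mulVec (h2.matrix_mulVec continuous_snd))

lemma qf_scale (θ J : Matrix (Fin 4) (Fin 4) ℝ) (c : ℝ) (v : Fin 4 → ℝ) :
    qf θ J (c • v) = c ^ 2 * qf θ J v := by
  simp only [qf, Matrix.mulVec_smul, smul_dotProduct, dotProduct_smul, smul_eq_mul]
  ring

/-- Uniform positive lower bound for a taming form. -/
lemma exists_lower {Ω J : (Fin 4 → ℝ) → Matrix (Fin 4) (Fin 4) ℝ} (hΩ : Continuous Ω)
    (hJ : Continuous J) (hΩp : ∀ (k : Fin 4) x, Ω (x + Pi.single k 1) = Ω x)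
    (hJp : ∀ (k : Fin 4) x, J (x + Pi.single k 1) = J x)
    (htame : ∀ x (v : Fin 4 → ℝ), v ≠ 0 → 0 < qf (Ω x) (J x) v) :
    ∃ m : ℝ, 0 < m ∧ ∀ x (v : Fin 4 → ℝ), m * ‖v‖ ^ 2 ≤ qf (Ω x) (J x) v := by
  have hK : IsCompact (Icc (0 : Fin 4 → ℝ) 1 ×ˢ Metric.sphere (0 : Fin 4 → ℝ) 1) :=
    isCompact_Icc.prod (isCompact_sphere _ _)
  have hne : (Icc (0 : Fin 4 → ℝ) 1 ×ˢ Metric.sphere (0 : Fin 4 → ℝ) 1).Nonempty := by
    refine ⟨(0, Pi.single 0 1), ⟨⟨le_refl _, fun _ => zero_le_one⟩, ?_⟩⟩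
    simp [Pi.norm_single]
  obtain ⟨p0, hp0, hmin⟩ := hK.exists_isMinOn hne (continuous_qf hΩ hJ).continuousOn
  have hp1 : p0.2 ≠ 0 := by
    intro h
    have h1 : ‖p0.2‖ = 1 := by simpa using hp0.2
    rw [h] at h1
    simp at h1
  refine ⟨qf (Ω p0.1) (J p0.1) p0.2, htame _ _ hp1, fun x v => ?_⟩
  by_cases hv : v = 0
  · subst hv
    simp [qf]
  have hn : 0 < ‖v‖ := norm_pos_iff.mpr hv
  set u := ‖v‖⁻¹ • v with hu
  have hun : ‖u‖ = 1 := by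
    rw [hu, norm_smul, norm_inv, norm_norm, inv_mul_cancel₀ hn.ne']
  have hvu : v = ‖v‖ • u := by
    rw [hu, smul_smul, mul_inv_cancel₀ hn.ne', one_smul]
  obtain ⟨y, hy, hxy⟩ := exists_rep (F := fun x => (Ω x, J x))
    (fun k x => by simp only [hΩp, hJp]) x
  have hxy1 : Ω x = Ω y := congrArg Prod.fst hxy
  have hxy2 : J x = J y := congrArg Prod.snd hxy
  have hm := hmin (a := (y, u)) ⟨hy, by simp [hun]⟩
  have hm' : qf (Ω p0.1) (J p0.1) p0.2 ≤ qf (Ω y) (J y) u := hm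
  conv_rhs => rw [hvu, qf_scale, hxy1, hxy2]
  nlinarith [sq_nonneg ‖v‖]

lemma abs_add_four (a b c d : ℝ) : |a + b + c + d| ≤ |a| + |b| + |c| + |d| := by
  have h1 := abs_add_le (a + b + c) d
  have h2 := abs_add_le (a + b) c
  have h3 := abs_add_le a b
  linarith

/-- Upper bound for the value of a form in terms of an entry bound. -/
lemma qf_abs_le {θ J : Matrix (Fin 4) (Fin 4) ℝ} {B K : ℝ} (hθ : ∀ i j, |θ i j| ≤ B)
    (hJ : ∀ i j, |J i j| ≤ K) (v : Fin 4 → ℝ) :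
    |qf θ J v| ≤ 64 * K * B * ‖v‖ ^ 2 := by
  have hB : 0 ≤ B := (abs_nonneg _).trans (hθ 0 0)
  have hK : 0 ≤ K := (abs_nonneg _).trans (hJ 0 0)
  have hv : ∀ i, |v i| ≤ ‖v‖ := fun i => norm_le_pi_norm v i
  have hJv : ∀ i, |(J *ᵥ v) i| ≤ 4 * K * ‖v‖ := by
    intro i
    simp only [Matrix.mulVec, dotProduct, Fin.sum_univ_four]
    have h : ∀ j, |J i j * v j| ≤ K * ‖v‖ := by
      intro j
      rw [abs_mul]
      exact mul_le_mul (hJ i j) (hv j) (abs_nonneg _) hK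
    have h4 := abs_add_four (J i 0 * v 0) (J i 1 * v 1) (J i 2 * v 2) (J i 3 * v 3)
    linarith [h 0, h 1, h 2, h 3]
  have hθJv : ∀ i, |(θ *ᵥ (J *ᵥ v)) i| ≤ 16 * K * B * ‖v‖ := by
    intro i
    simp only [Matrix.mulVec.eq_1 θ, dotProduct, Fin.sum_univ_four]
    have h : ∀ j, |θ i j * (J *ᵥ v) j| ≤ B * (4 * K * ‖v‖) := by
      intro j
      rw [abs_mul]
      exact mul_le_mul (hθ i j) (hJv j) (abs_nonneg _) hB
    have h4 := abs_add_four (θ i 0 * (J *ᵥ v) 0) (θ i 1 * (J *ᵥ v) 1) (θ i 2 * (J *ᵥ v) 2)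
      (θ i 3 * (J *ᵥ v) 3)
    linarith [h 0, h 1, h 2, h 3]
  simp only [qf, dotProduct, Fin.sum_univ_four]
  have h : ∀ j, |v j * (θ *ᵥ (J *ᵥ v)) j| ≤ ‖v‖ * (16 * K * B * ‖v‖) := by
    intro j
    rw [abs_mul]
    exact mul_le_mul (hv j) (hθJv j) (abs_nonneg _) (norm_nonneg _)
  have h4 := abs_add_four (v 0 * (θ *ᵥ (J *ᵥ v)) 0) (v 1 * (θ *ᵥ (J *ᵥ v)) 1)
    (v 2 * (θ *ᵥ (J *ᵥ v)) 2) (v 3 * (θ *ᵥ (J *ᵥ v)) 3)
  nlinarith [h 0, h 1, h 2, h 3]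

end Vale.Agent.Lib.P204.Cur
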