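import Mathlib
import Vale.Agent.Lib.P204.CurComp

open Matrix MeasureTheory Set
open scoped ContDiff

namespace Vale.Agent.Lib.P204.Cur

lemma continuous_wedge {A B : (Fin 4 → ℝ) → Matrix (Fin 4) (Fin 4) ℝ} (hA : Continuous A)
    (hB : Continuous B) : Continuous (fun x => wedge (A x) (B x)) := by
  unfold wedge
  have a : ∀ i j, Continuous fun x => A x i j := fun i j => hA.matrix_elem i j
  have b : ∀ i j, Continuous fun x => B x i j := fun i j => hB.matrix_elem i j
  exact ((((((a 0 1).mul (b 2 3)).sub ((a 0 2).mul (b 1 3))).add ((a 0 3).mul (b 1 2))).add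
    ((a 1 2).mul (b 0 3))).sub ((a 1 3).mul (b 0 2))).add ((a 2 3).mul (b 0 1))

lemma continuous_pf {A : (Fin 4 → ℝ) → Matrix (Fin 4) (Fin 4) ℝ} (hA : Continuous A) :
    Continuous (fun x => pf (A x)) := by
  unfold pf
  have a : ∀ i j, Continuous fun x => A x i j := fun i j => hA.matrix_elem i j
  exact (((a 0 1).mul (a 2 3)).sub ((a 0 2).mul (a 1 3))).add ((a 0 3).mul (a 1 2))

lemma continuous_part11 {J A : (Fin 4 → ℝ) → Matrix (Fin 4) (Fin 4) ℝ} (hJ : Continuous J)
    (hA : Continuous A) : Continuous (fun x => part11 (J x) (A x)) := by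
  unfold part11
  exact (hA.add ((hJ.matrix_transpose.matrix_mul hA).matrix_mul hJ)).const_smul (1 / 2 : ℝ)

lemma continuous_partAnti {J A : (Fin 4 → ℝ) → Matrix (Fin 4) (Fin 4) ℝ} (hJ : Continuous J)
    (hA : Continuous A) : Continuous (fun x => partAnti (J x) (A x)) := by
  unfold partAnti
  exact (hA.sub ((hJ.matrix_transpose.matrix_mul hA).matrix_mul hJ)).const_smul (1 / 2 : ℝ)

lemma int_add {f g : (Fin 4 → ℝ) → ℝ} (hf : Continuous f) (hg : Continuous g) :
    (∫ x in Icc (0 : Fin 4 → ℝ) 1, f x + g x)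
      = (∫ x in Icc (0 : Fin 4 → ℝ) 1, f x) + ∫ x in Icc (0 : Fin 4 → ℝ) 1, g x :=
  integral_add (hf.continuousOn.integrableOn_compact isCompact_Icc)
    (hg.continuousOn.integrableOn_compact isCompact_Icc)

lemma int_nonneg {f : (Fin 4 → ℝ) → ℝ} {sg : ℝ} (h : ∀ x, 0 ≤ sg * f x) :
    0 ≤ sg * ∫ x in Icc (0 : Fin 4 → ℝ) 1, f x := by
  rw [← integral_const_mul]
  exact setIntegral_nonneg measurableSet_Icc (fun x _ => h x)

lemma core_arith {X P D1 D2 r : ℝ} (hr : 0 ≤ r) (hD1 : 0 ≤ D1) (hD2 : 0 ≤ D2)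
    (hQ : 0 ≤ r ^ 2 * D1 + 2 * r * X - P) (hdisc : X ^ 2 ≤ P * D2) : X ≤ (D1 + 8 * D2) * r := by
  by_contra h
  push Not at h
  have hc : 0 ≤ (D1 + 8 * D2) * r := by positivity
  have hX : 0 < X := lt_of_le_of_lt hc h
  have h1 : X * X ≤ (r ^ 2 * D1 + 2 * r * X) * D2 := by
    have : P * D2 ≤ (r ^ 2 * D1 + 2 * r * X) * D2 := by
      apply mul_le_mul_of_nonneg_right _ hD2
      linarith
    nlinarith
  have h2 : X * ((D1 + 8 * D2) * r) < X * X := mul_lt_mul_of_pos_left h hX
  have h3 : 8 * D2 * r ≤ X := by nlinarith [mul_nonneg hD1 hr]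
  have h4 : (8 * D2 * r) * (r * D1) ≤ X * (r * D1) :=
    mul_le_mul_of_nonneg_right h3 (mul_nonneg hr hD1)
  have h5 : 0 ≤ r ^ 2 * D1 * D2 := by positivity
  have h6 : 0 ≤ X * r * D2 := by positivity
  nlinarith

/-- The key estimate. -/
theorem core_estimate
    {J Ω E : (Fin 4 → ℝ) → Matrix (Fin 4) (Fin 4) ℝ} {S : (Fin 4 → ℝ) → Fin 4 → ℝ} {sg r : ℝ}
    (hJc : Continuous J) (hJ2 : ∀ x, J x * J x = -1)
    (hΩ : IsForm Ω) (hΩc : IsClosedForm Ω)
    (htame : ∀ x (v : Fin 4 → ℝ), v ≠ 0 → 0 < qf (Ω x) (J x) v)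
    (hsg : ∀ x, 0 < sg * pf (part11 (J x) (Ω x)))
    (hS : ∀ i, ContDiff ℝ ∞ (fun x => S x i))
    (hSp : ∀ (k : Fin 4) x, S (x + Pi.single k 1) = S x)
    (hE : IsForm E) (hEd : ∀ x, E x = dOne S x)
    (hr : 0 ≤ r)
    (hle : ∀ x (v : Fin 4 → ℝ), qf (E x) (J x) v ≤ r * qf (Ω x) (J x) v) :
    -(sg * ∫ x in Icc (0 : Fin 4 → ℝ) 1, wedge (E x) (part11 (J x) (Ω x))) ≤
      ((sg * ∫ x in Icc (0 : Fin 4 → ℝ) 1,
          wedge (part11 (J x) (Ω x)) (part11 (J x) (Ω x)))
        + 8 * (sg * ∫ x in Icc (0 : Fin 4 → ℝ) 1,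
          wedge (partAnti (J x) (Ω x)) (partAnti (J x) (Ω x)))) * r := by
  have hΩcont : Continuous Ω := continuous_of_smooth hΩ.1
  have hEcont : Continuous E := continuous_of_smooth hE.1
  set W : (Fin 4 → ℝ) → Matrix (Fin 4) (Fin 4) ℝ := fun x => part11 (J x) (Ω x) with hW
  set w : (Fin 4 → ℝ) → Matrix (Fin 4) (Fin 4) ℝ := fun x => partAnti (J x) (Ω x) with hw
  set A : (Fin 4 → ℝ) → Matrix (Fin 4) (Fin 4) ℝ := fun x => part11 (J x) (E x) with hA
  set a : (Fin 4 → ℝ) → Matrix (Fin 4) (Fin 4) ℝ := fun x => partAnti (J x) (E x) with ha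
  have cW : Continuous W := continuous_part11 hJc hΩcont
  have cw : Continuous w := continuous_partAnti hJc hΩcont
  have cA : Continuous A := continuous_part11 hJc hEcont
  have ca : Continuous a := continuous_partAnti hJc hEcont
  -- pointwise facts
  have W_anti : ∀ x, (W x)ᵀ = - W x := fun x => part11_antisym (hΩ.2.2 x)
  have w_anti : ∀ x, (w x)ᵀ = - w x := fun x => partAnti_antisym (hΩ.2.2 x)
  have A_anti : ∀ x, (A x)ᵀ = - A x := fun x => part11_antisym (hE.2.2 x)
  have a_anti : ∀ x, (a x)ᵀ = - a x := fun x => partAnti_antisym (hE.2.2 x)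
  have W_inv : ∀ x, (J x)ᵀ * W x * J x = W x := fun x => part11_inv (hJ2 x) _
  have A_inv : ∀ x, (J x)ᵀ * A x * J x = A x := fun x => part11_inv (hJ2 x) _
  have w_ai : ∀ x, (J x)ᵀ * w x * J x = - w x := fun x => partAnti_anti (hJ2 x) _
  have a_ai : ∀ x, (J x)ᵀ * a x * J x = - a x := fun x => partAnti_anti (hJ2 x) _
  have W_tame : ∀ x (v : Fin 4 → ℝ), v ≠ 0 → 0 < qf (W x) (J x) v := by
    intro x v hv
    rw [hW]
    simp only
    rw [qf_part11 (hJ2 x) (hΩ.2.2 x)]
    exact htame x v hv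
  have hdet : ∀ x, (J x).det = 1 := fun x =>
    det_eq_one_of_tame (hJ2 x) (W_anti x) (W_inv x) (W_tame x)
  have o_aW : ∀ x, wedge (a x) (W x) = 0 := fun x =>
    wedge_anti_inv (hdet x) (a_anti x) (W_anti x) (a_ai x) (W_inv x)
  have o_wA : ∀ x, wedge (w x) (A x) = 0 := fun x =>
    wedge_anti_inv (hdet x) (w_anti x) (A_anti x) (w_ai x) (A_inv x)
  have o_aA : ∀ x, wedge (a x) (A x) = 0 := fun x =>
    wedge_anti_inv (hdet x) (a_anti x) (A_anti x) (a_ai x) (A_inv x)
  have dE : ∀ x, E x = A x + a x := fun x => (part_add (J := J x) (E x)).symm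
  have dΩ : ∀ x, Ω x = W x + w x := fun x => (part_add (J := J x) (Ω x)).symm
  have p1 : ∀ x, wedge (E x) (Ω x) = wedge (A x) (W x) + wedge (a x) (w x) := by
    intro x
    rw [dE x, dΩ x, wedge_add_left, wedge_add_right, wedge_add_right, o_aW,
      wedge_comm (A x) (w x), o_wA]
    ring
  have p2 : ∀ x, wedge (E x) (E x) = wedge (A x) (A x) + wedge (a x) (a x) := by
    intro x
    rw [dE x, wedge_add_left, wedge_add_right, wedge_add_right, o_aA, wedge_comm (A x) (a x), o_aA]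
    ring
  have p3 : ∀ x, wedge (E x) (W x) = wedge (A x) (W x) := by
    intro x
    rw [dE x, wedge_add_left, o_aW, add_zero]
  -- the positive form `T`
  set T : (Fin 4 → ℝ) → Matrix (Fin 4) (Fin 4) ℝ := fun x => r • W x - A x with hT
  have T_anti : ∀ x, (T x)ᵀ = - T x := by
    intro x
    simp only [hT, Matrix.transpose_sub, Matrix.transpose_smul, W_anti, A_anti, smul_neg, neg_sub]
    abel
  have T_nn : ∀ x (v : Fin 4 → ℝ), 0 ≤ qf (T x) (J x) v := by
    intro x v
    simp only [hT]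
    rw [qf_sub, qf_smul]
    have h1 : qf (W x) (J x) v = qf (Ω x) (J x) v := qf_part11 (hJ2 x) (hΩ.2.2 x) v
    have h2 : qf (A x) (J x) v = qf (E x) (J x) v := qf_part11 (hJ2 x) (hE.2.2 x) v
    rw [h1, h2]
    linarith [hle x v]
  have p4 : ∀ x, wedge (T x) (T x) =
      r ^ 2 * wedge (W x) (W x) - 2 * r * wedge (A x) (W x) + wedge (A x) (A x) := by
    intro x
    simp only [hT]
    simp only [wedge_sub_left, wedge_sub_right, wedge_smul_left, wedge_smul_right]
    rw [wedge_comm (W x) (A x)]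
    ring
  have n1 : ∀ x, 0 ≤ sg * wedge (T x) (T x) := by
    intro x
    have := sign_of_nonneg (hJ2 x) (W_anti x) (W_tame x) (hsg x) (T_anti x) (T_nn x)
    rw [wedge_self]
    linarith
  have n3 : ∀ x, 0 ≤ sg * wedge (W x) (W x) := by
    intro x
    rw [wedge_self]
    have := hsg x
    have h : sg * (2 * pf (W x)) = 2 * (sg * pf (W x)) := by ring
    rw [h]
    simp only [hW]
    linarith
  have n2 : ∀ (l : ℝ) x, 0 ≤ sg * wedge (a x + l • w x) (a x + l • w x) := by
    intro l x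
    have h1 : (a x + l • w x)ᵀ = -(a x + l • w x) := by
      rw [Matrix.transpose_add, Matrix.transpose_smul, a_anti, w_anti, neg_add, smul_neg]
    have h2 : (J x)ᵀ * (a x + l • w x) * J x = -(a x + l • w x) := by
      rw [Matrix.mul_add, Matrix.add_mul, Matrix.mul_smul, Matrix.smul_mul, a_ai, w_ai, neg_add,
        smul_neg]
    have := sign_of_anti (hJ2 x) (W_anti x) (W_inv x) (W_tame x) (hsg x) h1 h2
    rw [wedge_self]
    linarith
  have n4 : ∀ x, 0 ≤ sg * wedge (w x) (w x) := by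
    intro x
    have := sign_of_anti (hJ2 x) (W_anti x) (W_inv x) (W_tame x) (hsg x) (w_anti x) (w_ai x)
    rw [wedge_self]
    linarith
  -- integrals
  set iAW := ∫ x in Icc (0 : Fin 4 → ℝ) 1, wedge (A x) (W x) with hiAW
  set iaw := ∫ x in Icc (0 : Fin 4 → ℝ) 1, wedge (a x) (w x) with hiaw
  set iAA := ∫ x in Icc (0 : Fin 4 → ℝ) 1, wedge (A x) (A x) with hiAA
  set iaa := ∫ x in Icc (0 : Fin 4 → ℝ) 1, wedge (a x) (a x) with hiaa
  set iWW := ∫ x in Icc (0 : Fin 4 → ℝ) 1, wedge (W x) (W x) with hiWW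
  set iww := ∫ x in Icc (0 : Fin 4 → ℝ) 1, wedge (w x) (w x) with hiww
  have cAW := continuous_wedge cA cW
  have caw := continuous_wedge ca cw
  have cAA := continuous_wedge cA cA
  have caa := continuous_wedge ca ca
  have cWW := continuous_wedge cW cW
  have cww := continuous_wedge cw cw
  have s1 : iAW + iaw = 0 := by
    have h := stokes_wedge hS hSp hΩ.1 hΩ.2.1 hΩ.2.2 hΩc
    have e : ∀ x, wedge (dOne S x) (Ω x) = wedge (A x) (W x) + wedge (a x) (w x) := by
      intro x; rw [← hEd x]; exact p1 x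
    simp_rw [e] at h
    rw [int_add cAW caw] at h
    exact h
  have s2 : iAA + iaa = 0 := by
    have hcl : IsClosedForm E := by
      have : E = dOne S := funext hEd
      rw [this]
      exact closed_dOne hS
    have h := stokes_wedge hS hSp hE.1 hE.2.1 hE.2.2 hcl
    have e : ∀ x, wedge (dOne S x) (E x) = wedge (A x) (A x) + wedge (a x) (a x) := by
      intro x; rw [← hEd x]; exact p2 x
    simp_rw [e] at h
    rw [int_add cAA caa] at h
    exact h
  have s3 : (∫ x in Icc (0 : Fin 4 → ℝ) 1, wedge (E x) (W x)) = iAW := by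
    simp_rw [p3]
    rfl
  have s4 : (∫ x in Icc (0 : Fin 4 → ℝ) 1, wedge (T x) (T x))
      = r ^ 2 * iWW - 2 * r * iAW + iAA := by
    simp_rw [p4]
    have e : ∀ x, r ^ 2 * wedge (W x) (W x) - 2 * r * wedge (A x) (W x) + wedge (A x) (A x)
        = r ^ 2 * wedge (W x) (W x) + ((-(2 * r)) * wedge (A x) (W x) + wedge (A x) (A x)) := by
      intro x; ring
    simp_rw [e]
    have c1 : Continuous (fun x => r ^ 2 * wedge (W x) (W x)) := continuous_const.mul cWW
    have c2 : Continuous (fun x => (-(2 * r)) * wedge (A x) (W x)) := continuous_const.mul cAW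
    have c3 : Continuous (fun x => (-(2 * r)) * wedge (A x) (W x) + wedge (A x) (A x)) := c2.add cAA
    rw [int_add c1 c3, int_add c2 cAA, integral_const_mul, integral_const_mul]
    ring
  have hQ : 0 ≤ sg * (r ^ 2 * iWW - 2 * r * iAW + iAA) := by
    rw [← s4]
    exact int_nonneg n1
  have hD1 : 0 ≤ sg * iWW := int_nonneg n3
  have hD2 : 0 ≤ sg * iww := int_nonneg n4
  have hquad : ∀ l : ℝ, 0 ≤ (sg * iww) * (l * l) + (2 * (sg * iaw)) * l + (sg * iaa) := by
    intro l
    have h := int_nonneg (fun x => n2 l x)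
    have e : ∀ x, wedge (a x + l • w x) (a x + l • w x)
        = wedge (a x) (a x) + ((2 * l) * wedge (a x) (w x) + (l * l) * wedge (w x) (w x)) := by
      intro x
      rw [wedge_add_left, wedge_add_right, wedge_add_right, wedge_smul_left, wedge_smul_left,
        wedge_smul_right, wedge_smul_right, wedge_comm (w x) (a x)]
      ring
    simp_rw [e] at h
    have c1 : Continuous (fun x => (2 * l) * wedge (a x) (w x)) := continuous_const.mul caw
    have c2 : Continuous (fun x => (l * l) * wedge (w x) (w x)) := continuous_const.mul cww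
    have c3 : Continuous (fun x => (2 * l) * wedge (a x) (w x) + (l * l) * wedge (w x) (w x)) :=
      c1.add c2
    rw [int_add caa c3, int_add c1 c2, integral_const_mul, integral_const_mul] at h
    linarith
  have hdisc := discrim_le_zero hquad
  rw [discrim] at hdisc
  have key : sg * iaw ≤ (sg * iWW + 8 * (sg * iww)) * r := by
    apply core_arith hr hD1 hD2 (P := sg * iaa)
    · have e1 : iAW = - iaw := by linarith
      have e2 : iAA = - iaa := by linarith
      rw [e1, e2] at hQ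
      have : sg * (r ^ 2 * iWW - 2 * r * -iaw + -iaa)
          = r ^ 2 * (sg * iWW) + 2 * r * (sg * iaw) - sg * iaa := by ring
      linarith
    · nlinarith
  rw [s3]
  have e1 : iAW = - iaw := by linarith
  rw [e1]
  have : -(sg * -iaw) = sg * iaw := by ring
  rw [this]
  exact key

end Vale.Agent.Lib.P204.Cur
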