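import Mathlib
import Vale.Agent.Lib.P204.CurCore

open Matrix MeasureTheory Set
open scoped ContDiff Pointwise

namespace Vale.Agent.Lib.P204.Cur

lemma dOne_add {S S' : (Fin 4 → ℝ) → Fin 4 → ℝ} (hS : ∀ i, ContDiff ℝ ∞ (fun x => S x i))
    (hS' : ∀ i, ContDiff ℝ ∞ (fun x => S' x i)) (x : Fin 4 → ℝ) :
    dOne (S + S') x = dOne S x + dOne S' x := by
  have e : ∀ a (v : Fin 4 → ℝ), fderiv ℝ (fun z => (S + S') z a) x v
      = fderiv ℝ (fun z => S z a) x v + fderiv ℝ (fun z => S' z a) x v := by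
    intro a v
    have h1 := ((hS a).differentiable (by simp) x).hasFDerivAt
    have h2 := ((hS' a).differentiable (by simp) x).hasFDerivAt
    have h3 := (h1.add h2).fderiv
    have : (fun z => (S + S') z a) = (fun z => S z a) + (fun z => S' z a) := by
      funext z; simp
    rw [this, h3]
    simp
  ext i j
  simp only [dOne, Matrix.of_apply, Matrix.add_apply, e]
  ring

lemma dOne_smul {S : (Fin 4 → ℝ) → Fin 4 → ℝ} (hS : ∀ i, ContDiff ℝ ∞ (fun x => S x i)) (c : ℝ)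
    (x : Fin 4 → ℝ) : dOne (c • S) x = c • dOne S x := by
  have e : ∀ a (v : Fin 4 → ℝ), fderiv ℝ (fun z => (c • S) z a) x v
      = c * fderiv ℝ (fun z => S z a) x v := by
    intro a v
    have h1 := ((hS a).differentiable (by simp) x).hasFDerivAt
    have h3 := (h1.const_mul c).fderiv
    have : (fun z => (c • S) z a) = (fun y => c * (fun z => S z a) y) := by
      funext z; simp
    rw [this, h3]
    simp
  ext i j
  simp only [dOne, Matrix.of_apply, Matrix.smul_apply, e, smul_eq_mul]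
  ring

lemma dOne_zero (x : Fin 4 → ℝ) : dOne (0 : (Fin 4 → ℝ) → Fin 4 → ℝ) x = 0 := by
  ext i j
  simp [dOne]

/-- Test forms of the shape exact plus anti-invariant. -/
def exactAnti (J : (Fin 4 → ℝ) → Matrix (Fin 4) (Fin 4) ℝ) : Submodule ℝ ↥Forms where
  carrier := {θ | ∃ (S : (Fin 4 → ℝ) → Fin 4 → ℝ) (a : (Fin 4 → ℝ) → Matrix (Fin 4) (Fin 4) ℝ),
    (∀ i, ContDiff ℝ ∞ (fun x => S x i)) ∧ (∀ (k : Fin 4) x, S (x + Pi.single k 1) = S x) ∧
    IsForm a ∧ (∀ x, (J x)ᵀ * a x * J x = - a x) ∧ ∀ x, θ.1 x = dOne S x + a x}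
  add_mem' := by
    rintro θ η ⟨S, a, hS, hSp, ha, haJ, hθ⟩ ⟨S', a', hS', hSp', ha', haJ', hη⟩
    refine ⟨S + S', a + a', fun i => (hS i).add (hS' i), fun k x => ?_,
      Forms.add_mem ha ha', fun x => ?_, fun x => ?_⟩
    · simp only [Pi.add_apply, hSp, hSp']
    · simp only [Pi.add_apply, Matrix.mul_add, Matrix.add_mul, haJ, haJ', neg_add]
    · have : (θ + η).1 x = θ.1 x + η.1 x := rfl
      rw [this, hθ, hη, dOne_add hS hS']
      simp only [Pi.add_apply]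
      abel
  zero_mem' := by
    refine ⟨0, 0, fun i => contDiff_const, fun k x => rfl, Forms.zero_mem, fun x => ?_, fun x => ?_⟩
    · simp
    · rw [dOne_zero]; simp
  smul_mem' := by
    rintro c θ ⟨S, a, hS, hSp, ha, haJ, hθ⟩
    refine ⟨c • S, c • a, fun i => contDiff_const.mul (hS i), fun k x => ?_,
      Forms.smul_mem c ha, fun x => ?_, fun x => ?_⟩
    · simp only [Pi.smul_apply, hSp]
    · simp only [Pi.smul_apply, Matrix.mul_smul, Matrix.smul_mul, haJ, smul_neg]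
    · have : (c • θ).1 x = c • θ.1 x := rfl
      rw [this, hθ, dOne_smul hS]
      simp only [Pi.smul_apply, smul_add]

lemma mem_exactAnti {J : (Fin 4 → ℝ) → Matrix (Fin 4) (Fin 4) ℝ} {θ : ↥Forms} :
    θ ∈ exactAnti J ↔ ∃ (S : (Fin 4 → ℝ) → Fin 4 → ℝ) (a : (Fin 4 → ℝ) → Matrix (Fin 4) (Fin 4) ℝ),
    (∀ i, ContDiff ℝ ∞ (fun x => S x i)) ∧ (∀ (k : Fin 4) x, S (x + Pi.single k 1) = S x) ∧
    IsForm a ∧ (∀ x, (J x)ᵀ * a x * J x = - a x) ∧ ∀ x, θ.1 x = dOne S x + a x := Iff.rfl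

/-- The linear functional `θ ↦ sg ∫ θ ∧ W`. -/
noncomputable def mu (sg : ℝ) (W : (Fin 4 → ℝ) → Matrix (Fin 4) (Fin 4) ℝ) (hW : Continuous W) :
    ↥Forms →ₗ[ℝ] ℝ where
  toFun θ := sg * ∫ x in Icc (0 : Fin 4 → ℝ) 1, wedge (θ.1 x) (W x)
  map_add' := by
    intro θ η
    have h1 := continuous_wedge (continuous_of_smooth θ.2.1) hW
    have h2 := continuous_wedge (continuous_of_smooth η.2.1) hW
    have e : ∀ x, wedge ((θ + η).1 x) (W x) = wedge (θ.1 x) (W x) + wedge (η.1 x) (W x) := by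
      intro x
      have : (θ + η).1 x = θ.1 x + η.1 x := rfl
      rw [this, wedge_add_left]
    simp_rw [e]
    rw [int_add h1 h2]
    ring
  map_smul' := by
    intro c θ
    have e : ∀ x, wedge ((c • θ).1 x) (W x) = c * wedge (θ.1 x) (W x) := by
      intro x
      have : (c • θ).1 x = c • θ.1 x := rfl
      rw [this, wedge_smul_left]
    simp_rw [e]
    rw [integral_const_mul]
    simp only [RingHom.id_apply, smul_eq_mul]
    ring

lemma pos_of_ne_zero {f : (Fin 4 → ℝ) → ℝ} (hf : Continuous f) (h : ∀ x, f x ≠ 0) (h0 : 0 < f 0)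
    (x : Fin 4 → ℝ) : 0 < f x := by
  by_contra hx
  push Not at hx
  obtain ⟨y, hy⟩ := intermediate_value_univ x 0 hf ⟨hx, h0.le⟩
  exact h y hy


lemma mu_abs_le {sg B KW : ℝ} {W : (Fin 4 → ℝ) → Matrix (Fin 4) (Fin 4) ℝ} {hW : Continuous W}
    (hsg1 : |sg| = 1) (hKW : ∀ x i j, |W x i j| ≤ KW) {θ : ↥Forms}
    (hB : ∀ x i j, |θ.1 x i j| ≤ B) : |mu sg W hW θ| ≤ 6 * KW * B := by
  have hB0 : 0 ≤ B := (abs_nonneg _).trans (hB 0 0 0)
  have hwedge : ∀ x, |wedge (θ.1 x) (W x)| ≤ 6 * KW * B := by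
    intro x
    have t : ∀ i j k l, |θ.1 x i j * W x k l| ≤ B * KW := fun i j k l => by
      rw [abs_mul]
      exact mul_le_mul (hB x i j) (hKW x k l) (abs_nonneg _) hB0
    unfold wedge
    have a1 := abs_add_le (θ.1 x 0 1 * W x 2 3 - θ.1 x 0 2 * W x 1 3 + θ.1 x 0 3 * W x 1 2 +
      θ.1 x 1 2 * W x 0 3 - θ.1 x 1 3 * W x 0 2) (θ.1 x 2 3 * W x 0 1)
    have a2 := abs_sub (θ.1 x 0 1 * W x 2 3 - θ.1 x 0 2 * W x 1 3 + θ.1 x 0 3 * W x 1 2 +
      θ.1 x 1 2 * W x 0 3) (θ.1 x 1 3 * W x 0 2)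
    have a3 := abs_add_le (θ.1 x 0 1 * W x 2 3 - θ.1 x 0 2 * W x 1 3 + θ.1 x 0 3 * W x 1 2)
      (θ.1 x 1 2 * W x 0 3)
    have a4 := abs_add_le (θ.1 x 0 1 * W x 2 3 - θ.1 x 0 2 * W x 1 3) (θ.1 x 0 3 * W x 1 2)
    have a5 := abs_sub (θ.1 x 0 1 * W x 2 3) (θ.1 x 0 2 * W x 1 3)
    have := t 0 1 2 3
    have := t 0 2 1 3
    have := t 0 3 1 2
    have := t 1 2 0 3
    have := t 1 3 0 2
    have := t 2 3 0 1
    linarith
  show |sg * ∫ x in Icc (0 : Fin 4 → ℝ) 1, wedge (θ.1 x) (W x)| ≤ _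
  rw [abs_mul, hsg1, one_mul]
  have hvol : volume (Icc (0 : Fin 4 → ℝ) 1) = 1 := by
    rw [Real.volume_Icc_pi]
    simp
  have := norm_setIntegral_le_of_norm_le_const (μ := volume) (s := Icc (0 : Fin 4 → ℝ) 1)
    (f := fun x => wedge (θ.1 x) (W x)) (C := 6 * KW * B) (by rw [hvol]; simp)
    (fun x _ => hwedge x)
  have hvr : volume.real (Icc (0 : Fin 4 → ℝ) 1) = 1 := by
    simp [Measure.real, hvol]
  rw [hvr, mul_one] at this
  exact this



section Generic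
variable {E ι : Type*} [AddCommGroup E] [Module ℝ E]

/-- Abstract Hahn-Banach statement: the functional `-μ` on `V` extends to a linear functional
dominated by the gauge of the cone cut out by the family of linear forms `Q · i` and the
bounds `Q0 i`. -/
theorem hb_generic (Q : E → ι → ℝ) (Q0 : ι → ℝ)
    (hQadd : ∀ θ η i, Q (θ + η) i = Q θ i + Q η i)
    (hQsmul : ∀ (c : ℝ) θ i, Q (c • θ) i = c * Q θ i)
    (hQ0 : ∀ i, 0 ≤ Q0 i)
    (habs : ∀ θ, ∃ r : ℝ, 0 ≤ r ∧ ∀ i, |Q θ i| ≤ r * Q0 i)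
    {C : ℝ} (hC : 0 ≤ C) (V : Submodule ℝ E) (μ : E →ₗ[ℝ] ℝ)
    (hkey : ∀ θ ∈ V, ∀ r : ℝ, 0 < r → (∀ i, Q θ i ≤ r * Q0 i) → - μ θ ≤ C * r) :
    ∃ g : E →ₗ[ℝ] ℝ, (∀ θ ∈ V, g θ = - μ θ) ∧
      ∀ θ (r : ℝ), 0 ≤ r → (∀ i, Q θ i ≤ r * Q0 i) → g θ ≤ C * r := by
  set s : Set E := {θ | ∀ i, Q θ i ≤ Q0 i} with hs
  have hconv : Convex ℝ s := by
    intro θ hθ η hη a b ha hb hab i
    rw [hQadd, hQsmul, hQsmul]
    have h1 := mul_le_mul_of_nonneg_left (hθ i) ha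
    have h2 := mul_le_mul_of_nonneg_left (hη i) hb
    have h3 : a * Q0 i + b * Q0 i = Q0 i := by
      rw [← add_mul, hab, one_mul]
    linarith
  have hmem : ∀ (θ : E) (r : ℝ), 0 < r → (θ ∈ r • s ↔ ∀ i, Q θ i ≤ r * Q0 i) := by
    intro θ r hr
    rw [Set.mem_smul_set_iff_inv_smul_mem₀ hr.ne']
    constructor
    · intro h i
      have h1 := h i
      rw [hQsmul] at h1
      have h2 := mul_le_mul_of_nonneg_left h1 hr.le
      rwa [← mul_assoc, mul_inv_cancel₀ hr.ne', one_mul] at h2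
    · intro h i
      rw [hQsmul]
      have h2 := mul_le_mul_of_nonneg_left (h i) (inv_nonneg.mpr hr.le)
      rwa [← mul_assoc, inv_mul_cancel₀ hr.ne', one_mul] at h2
  have habsorb : Absorbent ℝ s := by
    rw [absorbent_iff_inv_smul]
    intro θ
    obtain ⟨r, hr0, hr⟩ := habs θ
    refine (Filter.hasBasis_cobounded_norm).eventually_iff.2 ⟨r + 1, trivial, fun c hc i => ?_⟩
    have hc' : r + 1 ≤ |c| := hc
    have hcp : 0 < |c| := by linarith
    rw [hQsmul]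
    have h1 := hr i
    have h2 : c⁻¹ * Q θ i ≤ |c|⁻¹ * |Q θ i| := by
      calc c⁻¹ * Q θ i ≤ |c⁻¹ * Q θ i| := le_abs_self _
        _ = |c|⁻¹ * |Q θ i| := by rw [abs_mul, abs_inv]
    have h3 : |c|⁻¹ * |Q θ i| ≤ |c|⁻¹ * (r * Q0 i) :=
      mul_le_mul_of_nonneg_left h1 (by positivity)
    have h4 : |c|⁻¹ * (r * Q0 i) ≤ Q0 i := by
      have h5 : r * Q0 i ≤ |c| * Q0 i := mul_le_mul_of_nonneg_right (by linarith) (hQ0 i)
      calc |c|⁻¹ * (r * Q0 i) ≤ |c|⁻¹ * (|c| * Q0 i) :=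
            mul_le_mul_of_nonneg_left h5 (by positivity)
        _ = Q0 i := by rw [← mul_assoc, inv_mul_cancel₀ hcp.ne', one_mul]
    linarith
  have hgle : ∀ (θ : E) (r : ℝ), 0 ≤ r → (∀ i, Q θ i ≤ r * Q0 i) → gauge s θ ≤ r := by
    intro θ r hr h
    apply le_of_forall_pos_le_add
    intro ε hε
    apply gauge_le_of_mem (by linarith)
    rw [hmem θ _ (by linarith)]
    intro i
    have := h i
    have h2 := hQ0 i
    nlinarith
  have hfkey : ∀ θ ∈ V, - μ θ ≤ C * gauge s θ := by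
    intro θ hθ
    apply le_of_forall_pos_le_add
    intro ε hε
    have hδ : 0 < ε / (C + 1) := by positivity
    have hgl : gauge s θ < gauge s θ + ε / (C + 1) := by linarith
    obtain ⟨r, hr0, hr1, hrm⟩ := exists_lt_of_gauge_lt habsorb hgl
    have hcore := hkey θ hθ r hr0 ((hmem θ r hr0).mp hrm)
    have h1 : C * r ≤ C * (gauge s θ + ε / (C + 1)) := mul_le_mul_of_nonneg_left hr1.le hC
    have h2 : C * (ε / (C + 1)) ≤ ε := by
      have : C * (ε / (C + 1)) = ε * (C / (C + 1)) := by ring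
      rw [this]
      have h3 : C / (C + 1) ≤ 1 := by
        rw [div_le_one (by linarith)]
        linarith
      nlinarith
    have h3 : C * (gauge s θ + ε / (C + 1)) = C * gauge s θ + C * (ε / (C + 1)) := by ring
    linarith
  have hN_hom : ∀ c : ℝ, 0 < c → ∀ θ : E, C * gauge s (c • θ) = c * (C * gauge s θ) := by
    intro c hc θ
    rw [gauge_smul_of_nonneg hc.le, smul_eq_mul]
    ring
  have hN_add : ∀ θ η : E, C * gauge s (θ + η) ≤ C * gauge s θ + C * gauge s η := by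
    intro θ η
    rw [← mul_add]
    exact mul_le_mul_of_nonneg_left (gauge_add_le hconv habsorb θ η) hC
  obtain ⟨g, hgf, hgN⟩ := exists_extension_of_le_sublinear
    (⟨V, (-μ).comp V.subtype⟩ : E →ₗ.[ℝ] ℝ)
    (fun θ => C * gauge s θ) hN_hom hN_add (fun v => hfkey v.1 v.2)
  refine ⟨g, fun θ hθ => hgf ⟨θ, hθ⟩, fun θ r hr h => ?_⟩
  exact (hgN θ).trans (mul_le_mul_of_nonneg_left (hgle θ r hr h) hC)

end Generic

/-- The standing assumptions. -/
structure Data (J Ω : (Fin 4 → ℝ) → Matrix (Fin 4) (Fin 4) ℝ) : Prop where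
  hJc : Continuous J
  hJp : ∀ (k : Fin 4) x, J (x + Pi.single k 1) = J x
  hJ2 : ∀ x, J x * J x = -1
  hΩ : IsForm Ω
  hΩc : IsClosedForm Ω
  htame : ∀ x (v : Fin 4 → ℝ), v ≠ 0 → 0 < qf (Ω x) (J x) v

section
variable {J Ω : (Fin 4 → ℝ) → Matrix (Fin 4) (Fin 4) ℝ} (D : Data J Ω)
include D

lemma Data.cΩ : Continuous Ω := continuous_of_smooth D.hΩ.1

lemma Data.cW : Continuous (fun x => part11 (J x) (Ω x)) := continuous_part11 D.hJc D.cΩ

lemma Data.W_per (k : Fin 4) (x : Fin 4 → ℝ) :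
    part11 (J (x + Pi.single k 1)) (Ω (x + Pi.single k 1)) = part11 (J x) (Ω x) := by
  rw [D.hJp, D.hΩ.2.1]

lemma Data.W_anti (x : Fin 4 → ℝ) : (part11 (J x) (Ω x))ᵀ = - part11 (J x) (Ω x) :=
  part11_antisym (D.hΩ.2.2 x)

lemma Data.W_inv (x : Fin 4 → ℝ) :
    (J x)ᵀ * part11 (J x) (Ω x) * J x = part11 (J x) (Ω x) := part11_inv (D.hJ2 x) _

lemma Data.W_tame (x v : Fin 4 → ℝ) (hv : v ≠ 0) : 0 < qf (part11 (J x) (Ω x)) (J x) v := by
  rw [qf_part11 (D.hJ2 x) (D.hΩ.2.2 x)]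
  exact D.htame x v hv

lemma Data.det (x : Fin 4 → ℝ) : (J x).det = 1 :=
  det_eq_one_of_tame (D.hJ2 x) (D.W_anti x) (D.W_inv x) (D.W_tame x)

lemma Data.exists_sign : ∃ sg : ℝ, |sg| = 1 ∧ ∀ x, 0 < sg * pf (part11 (J x) (Ω x)) := by
  have hne : ∀ x, pf (part11 (J x) (Ω x)) ≠ 0 := fun x =>
    pf_ne_zero_of_tame (D.hJ2 x) (D.W_anti x) (D.W_tame x)
  have hc := continuous_pf D.cW
  rcases lt_or_gt_of_ne (hne 0) with h0 | h0
  · refine ⟨-1, by simp, fun x => ?_⟩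
    have := pos_of_ne_zero (f := fun x => - pf (part11 (J x) (Ω x))) hc.neg
      (fun x => neg_ne_zero.mpr (hne x)) (by simpa using h0) x
    simpa using this
  · refine ⟨1, by simp, fun x => ?_⟩
    have := pos_of_ne_zero (f := fun x => pf (part11 (J x) (Ω x))) hc hne h0 x
    simpa using this

lemma Data.exists_K : ∃ K : ℝ, 0 ≤ K ∧ (∀ x (v : Fin 4 → ℝ), 0 ≤ qf (Ω x) (J x) v) ∧
    ∀ (θ : ↥Forms) (B : ℝ), (∀ x i j, |θ.1 x i j| ≤ B) →
      ∀ x (v : Fin 4 → ℝ), |qf (θ.1 x) (J x) v| ≤ (K * B) * qf (Ω x) (J x) v := by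
  obtain ⟨m, hm, hlow⟩ := exists_lower D.cΩ D.hJc D.hΩ.2.1 D.hJp D.htame
  obtain ⟨KJ, hKJ0, hKJ⟩ := exists_entry_bound D.hJc D.hJp
  refine ⟨64 * KJ / m, by positivity, ?_, ?_⟩
  · intro x v
    have := hlow x v
    have h2 : 0 ≤ m * ‖v‖ ^ 2 := by positivity
    linarith
  · intro θ B hB x v
    have h1 := qf_abs_le (hB x) (hKJ x) v
    have h2 := hlow x v
    have hB0 : 0 ≤ B := (abs_nonneg _).trans (hB 0 0 0)
    have h3 : 0 ≤ 64 * KJ / m * B := by positivity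
    have h4 := mul_le_mul_of_nonneg_left h2 h3
    have h5 : 64 * KJ / m * B * (m * ‖v‖ ^ 2) = 64 * KJ * B * ‖v‖ ^ 2 := by
      field_simp
    linarith

/-- The constant of the key estimate. -/
noncomputable def cst (J Ω : (Fin 4 → ℝ) → Matrix (Fin 4) (Fin 4) ℝ) (sg : ℝ) : ℝ :=
  (sg * ∫ x in Icc (0 : Fin 4 → ℝ) 1, wedge (part11 (J x) (Ω x)) (part11 (J x) (Ω x)))
    + 8 * (sg * ∫ x in Icc (0 : Fin 4 → ℝ) 1, wedge (partAnti (J x) (Ω x)) (partAnti (J x) (Ω x)))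

lemma Data.cst_nonneg {sg : ℝ} (hsg : ∀ x, 0 < sg * pf (part11 (J x) (Ω x))) : 0 ≤ cst J Ω sg := by
  have h1 : 0 ≤ sg * ∫ x in Icc (0 : Fin 4 → ℝ) 1, wedge (part11 (J x) (Ω x)) (part11 (J x) (Ω x)) :=
    int_nonneg (fun x => by
      rw [wedge_self]
      have := hsg x
      nlinarith)
  have h2 : 0 ≤ sg * ∫ x in Icc (0 : Fin 4 → ℝ) 1, wedge (partAnti (J x) (Ω x)) (partAnti (J x) (Ω x)) :=
    int_nonneg (fun x => by
      have := sign_of_anti (D.hJ2 x) (D.W_anti x) (D.W_inv x) (D.W_tame x) (hsg x)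
        (partAnti_antisym (D.hΩ.2.2 x)) (partAnti_anti (D.hJ2 x) _)
      rw [wedge_self]
      linarith)
  unfold cst
  linarith

/-- The key estimate on exact plus anti-invariant forms. -/
lemma Data.key_bound {sg : ℝ} (hsg : ∀ x, 0 < sg * pf (part11 (J x) (Ω x))) (θ : ↥Forms)
    (hθ : θ ∈ exactAnti J) (r : ℝ) (hr : 0 ≤ r)
    (hrm : ∀ x v, qf (θ.1 x) (J x) v ≤ r * qf (Ω x) (J x) v) :
    - (mu sg _ D.cW θ) ≤ cst J Ω sg * r := by
  obtain ⟨S, a, hS, hSp, ha, haJ, hva⟩ := mem_exactAnti.mp hθ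
  have hEf : IsForm (fun x => θ.1 x - a x) := by
    have : θ.1 - a ∈ Forms := Forms.sub_mem θ.2 ha
    exact this
  have hEd : ∀ x, (fun x => θ.1 x - a x) x = dOne S x := by
    intro x
    simp only
    rw [hva x]
    abel
  have haW : ∀ x, wedge (a x) (part11 (J x) (Ω x)) = 0 := fun x =>
    wedge_anti_inv (D.det x) (ha.2.2 x) (D.W_anti x) (haJ x) (D.W_inv x)
  have hμE : mu sg _ D.cW θ = sg * ∫ x in Icc (0 : Fin 4 → ℝ) 1,
      wedge ((fun x => θ.1 x - a x) x) (part11 (J x) (Ω x)) := by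
    show (sg * ∫ x in Icc (0 : Fin 4 → ℝ) 1, wedge (θ.1 x) (part11 (J x) (Ω x))) = _
    congr 1
    apply integral_congr_ae
    filter_upwards with x
    show wedge (θ.1 x) _ = wedge (θ.1 x - a x) _
    rw [wedge_sub_left, haW, sub_zero]
  have hle : ∀ x (u : Fin 4 → ℝ), qf ((fun x => θ.1 x - a x) x) (J x) u ≤ r * qf (Ω x) (J x) u := by
    intro x u
    simp only
    rw [qf_sub, qf_anti (D.hJ2 x) (ha.2.2 x) (haJ x) u, sub_zero]
    exact hrm x u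
  have hcore := core_estimate D.hJc D.hJ2 D.hΩ D.hΩc D.htame hsg hS hSp hEf hEd hr hle
  rw [hμE]
  exact hcore

/-- The Hahn-Banach extension. -/
lemma Data.exists_ext {sg : ℝ} (hsg : ∀ x, 0 < sg * pf (part11 (J x) (Ω x))) :
    ∃ g : ↥Forms →ₗ[ℝ] ℝ, (∀ θ : ↥Forms, θ ∈ exactAnti J → g θ = - (mu sg _ D.cW θ)) ∧
      ∀ (θ : ↥Forms) (r : ℝ), 0 ≤ r → (∀ x v, qf (θ.1 x) (J x) v ≤ r * qf (Ω x) (J x) v) →
        g θ ≤ cst J Ω sg * r := by
  obtain ⟨K, hK0, hQ0, hbound⟩ := D.exists_K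
  obtain ⟨g, h1, h2⟩ := hb_generic (E := ↥Forms) (ι := (Fin 4 → ℝ) × (Fin 4 → ℝ))
    (fun θ p => qf (θ.1 p.1) (J p.1) p.2) (fun p => qf (Ω p.1) (J p.1) p.2)
    (fun θ η p => qf_add _ _ _ _) (fun c θ p => qf_smul _ _ _ _) (fun p => hQ0 _ _)
    (fun θ => by
      obtain ⟨B, hB0, hB⟩ := exists_entry_bound (continuous_of_smooth θ.2.1) θ.2.2.1
      exact ⟨K * B, by positivity, fun p => hbound θ B hB _ _⟩)
    (D.cst_nonneg hsg) (exactAnti J) (mu sg _ D.cW)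
    (fun θ hθ r hr h => D.key_bound hsg θ hθ r hr.le (fun x v => h (x, v)))
  exact ⟨g, h1, fun θ r hr h => h2 θ r hr (fun p => h p.1 p.2)⟩

end

/-- Every tamed `J` on the four-torus carries a closed positive `(1,1)` current of order zero
bounded below by the `(1,1)` part of the taming form (a Kähler current). -/
theorem exists_kahler_current
    (J : (Fin 4 → ℝ) → Matrix (Fin 4) (Fin 4) ℝ)
    (hJc : Continuous J)
    (hJp : ∀ (k : Fin 4) x, J (x + Pi.single k 1) = J x)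
    (hJ2 : ∀ x, J x * J x = -1)
    (Ω : (Fin 4 → ℝ) → Matrix (Fin 4) (Fin 4) ℝ)
    (hΩ : IsForm Ω) (hΩc : IsClosedForm Ω)
    (htame : ∀ x (v : Fin 4 → ℝ), v ≠ 0 → 0 < qf (Ω x) (J x) v) :
    ∃ (G : ↥Forms →ₗ[ℝ] ℝ) (C : ℝ),
      (∀ θ : ↥Forms, ∀ S : (Fin 4 → ℝ) → Fin 4 → ℝ, (∀ i, ContDiff ℝ ∞ (fun x => S x i)) →
        (∀ (k : Fin 4) x, S (x + Pi.single k 1) = S x) → (∀ x, θ.1 x = dOne S x) → G θ = 0) ∧
      (∀ θ : ↥Forms, (∀ x, (J x)ᵀ * θ.1 x * J x = - θ.1 x) → G θ = 0) ∧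
      (∀ θ : ↥Forms, (∀ x, (J x)ᵀ * θ.1 x * J x = θ.1 x) →
        (∀ x (v : Fin 4 → ℝ), 0 ≤ qf (θ.1 x) (J x) v) →
        (∫ x in Icc (0 : Fin 4 → ℝ) 1, |wedge (θ.1 x) (part11 (J x) (Ω x))|) ≤ G θ) ∧
      (∀ (θ : ↥Forms) (B : ℝ), (∀ x i j, |θ.1 x i j| ≤ B) → |G θ| ≤ C * B) := by
  have D : Data J Ω := ⟨hJc, hJp, hJ2, hΩ, hΩc, htame⟩
  obtain ⟨sg, hsg1, hsg⟩ := D.exists_sign
  obtain ⟨g, hgV, hgN⟩ := D.exists_ext hsg
  obtain ⟨K, hK0, hQ0, hbound⟩ := D.exists_K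
  obtain ⟨KW, hKW0, hKW⟩ := exists_entry_bound D.cW D.W_per
  have hC0 := D.cst_nonneg hsg
  refine ⟨g + mu sg _ D.cW, cst J Ω sg * K + 6 * KW, ?_, ?_, ?_, ?_⟩
  · -- closed
    intro θ S hS hSp hθ
    have hmem : θ ∈ exactAnti J := by
      refine mem_exactAnti.mpr ⟨S, 0, hS, hSp, Forms.zero_mem, fun x => by simp, fun x => ?_⟩
      rw [hθ x]
      simp
    simp only [LinearMap.add_apply]
    rw [hgV θ hmem]
    ring
  · -- type (1,1)
    intro θ hθ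
    have hmem : θ ∈ exactAnti J := by
      refine mem_exactAnti.mpr ⟨0, θ.1, fun i => contDiff_const, fun k x => rfl, θ.2, hθ,
        fun x => ?_⟩
      rw [dOne_zero, zero_add]
    simp only [LinearMap.add_apply]
    rw [hgV θ hmem]
    ring
  · -- strict positivity
    intro θ hinv hθn
    have hg1 := hgN (-θ) 0 le_rfl (fun x v => by
      have e : (-θ).1 x = - θ.1 x := rfl
      rw [e, qf_neg, zero_mul]
      linarith [hθn x v])
    rw [map_neg, mul_zero] at hg1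
    have hg2 : 0 ≤ g θ := by linarith
    have hpt : ∀ x, 0 ≤ sg * wedge (θ.1 x) (part11 (J x) (Ω x)) := fun x =>
      sign_wedge (D.hJ2 x) (D.W_anti x) (D.W_inv x) (D.W_tame x) (hsg x) (θ.2.2.2 x) (hinv x) (hθn x)
    have hab : ∀ x, |wedge (θ.1 x) (part11 (J x) (Ω x))| = sg * wedge (θ.1 x) (part11 (J x) (Ω x)) := by
      intro x
      have h1 : |sg * wedge (θ.1 x) (part11 (J x) (Ω x))| = sg * wedge (θ.1 x) (part11 (J x) (Ω x)) :=
        abs_of_nonneg (hpt x)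
      rw [abs_mul, hsg1, one_mul] at h1
      exact h1
    have hint : (∫ x in Icc (0 : Fin 4 → ℝ) 1, |wedge (θ.1 x) (part11 (J x) (Ω x))|)
        = mu sg _ D.cW θ := by
      show _ = sg * ∫ x in Icc (0 : Fin 4 → ℝ) 1, wedge (θ.1 x) (part11 (J x) (Ω x))
      rw [← integral_const_mul]
      simp_rw [hab]
    simp only [LinearMap.add_apply]
    rw [hint]
    linarith
  · -- order zero
    intro θ B hB
    have hB0 : 0 ≤ B := (abs_nonneg _).trans (hB 0 0 0)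
    have hr0 : 0 ≤ K * B := by positivity
    have hg3 := hgN θ (K * B) hr0 (fun x v => (le_abs_self _).trans (hbound θ B hB x v))
    have hg4 := hgN (-θ) (K * B) hr0 (fun x v => by
      have e : (-θ).1 x = - θ.1 x := rfl
      rw [e, qf_neg]
      exact (neg_le_abs _).trans (hbound θ B hB x v))
    rw [map_neg] at hg4
    have hgab : |g θ| ≤ cst J Ω sg * (K * B) := abs_le.mpr ⟨by linarith, by linarith⟩
    have hμab : |mu sg _ D.cW θ| ≤ 6 * KW * B := mu_abs_le hsg1 hKW hB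
    simp only [LinearMap.add_apply]
    calc |g θ + mu sg _ D.cW θ| ≤ |g θ| + |mu sg _ D.cW θ| := abs_add_le _ _
      _ ≤ cst J Ω sg * (K * B) + 6 * KW * B := add_le_add hgab hμab
      _ = (cst J Ω sg * K + 6 * KW) * B := by ring

end Vale.Agent.Lib.P204.Cur
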