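import Mathlib
import Vale.Agent.Lib.P204.Construct

open Matrix Set
open scoped ContDiff

namespace Vale.Agent.Lib.P204

/-- Entrywise smooth matrix valued functions. -/
def MS (A : ℝ → Matrix (Fin 4) (Fin 4) ℝ) : Prop := ∀ i j, ContDiff ℝ ∞ (fun t => A t i j)

lemma MS.add {A B : ℝ → Matrix (Fin 4) (Fin 4) ℝ} (hA : MS A) (hB : MS B) : MS (fun t => A t + B t) :=
  fun i j => (hA i j).add (hB i j)

lemma MS.sub {A B : ℝ → Matrix (Fin 4) (Fin 4) ℝ} (hA : MS A) (hB : MS B) : MS (fun t => A t - B t) :=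
  fun i j => (hA i j).sub (hB i j)

lemma MS.mul {A B : ℝ → Matrix (Fin 4) (Fin 4) ℝ} (hA : MS A) (hB : MS B) : MS (fun t => A t * B t) := by
  intro i j
  simp only [Matrix.mul_apply]
  exact ContDiff.sum (fun k _ => (hA i k).mul (hB k j))

lemma MS.transpose {A : ℝ → Matrix (Fin 4) (Fin 4) ℝ} (hA : MS A) : MS (fun t => (A t)ᵀ) :=
  fun i j => hA j i

lemma MS.const (A : Matrix (Fin 4) (Fin 4) ℝ) : MS (fun _ => A) := fun _ _ => contDiff_const

lemma MS.smul {A : ℝ → Matrix (Fin 4) (Fin 4) ℝ} (c : ℝ) (hA : MS A) : MS (fun t => c • A t) :=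
  fun i j => contDiff_const.mul (hA i j)

lemma MS.mulVec {A : ℝ → Matrix (Fin 4) (Fin 4) ℝ} {v : ℝ → Fin 4 → ℝ} (hA : MS A)
    (hv : ∀ i, ContDiff ℝ ∞ (fun t => v t i)) (i : Fin 4) :
    ContDiff ℝ ∞ (fun t => (A t *ᵥ v t) i) := by
  simp only [Matrix.mulVec, dotProduct]
  exact ContDiff.sum (fun k _ => (hA i k).mul (hv k))

lemma MS.vmv {u v : ℝ → Fin 4 → ℝ} (hu : ∀ i, ContDiff ℝ ∞ (fun t => u t i))
    (hv : ∀ i, ContDiff ℝ ∞ (fun t => v t i)) : MS (fun t => vecMulVec (u t) (v t)) := by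
  intro i j
  simp only [vecMulVec_apply]
  exact (hu i).mul (hv j)

section
variable {J : ℝ → Matrix (Fin 4) (Fin 4) ℝ} (hJs : MS J) (hJ2 : ∀ t, J t * J t = -1)
include hJs hJ2

lemma Nv_smooth (i : Fin 4) : ContDiff ℝ ∞ (fun t => Nv (J t) i) := by
  have hr : ContDiff ℝ ∞ (fun t => rho2 (J t)) := by
    unfold rho2
    exact ((hJs 0 1).pow 2).add ((hJs 0 2).pow 2) |>.add ((hJs 0 3).pow 2)
  have hne : ∀ t, rho2 (J t) ≠ 0 := fun t => (rho2_pos (hJ2 t)).ne'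
  fin_cases i
  · exact contDiff_const
  · exact (((hJs 0 0).mul (hJs 0 1)).div hr hne).neg
  · exact (((hJs 0 0).mul (hJs 0 2)).div hr hne).neg
  · exact (((hJs 0 0).mul (hJs 0 3)).div hr hne).neg

lemma Pm_smooth : MS (fun t => Pm (J t)) := by
  unfold Pm
  exact (MS.const 1).sub (MS.vmv (v := fun _ => e0) (Nv_smooth hJs hJ2) (fun _ => contDiff_const))

lemma Rm_smooth : MS (fun t => Rm (J t)) := by
  unfold Rm
  refine ((MS.const 1).sub (MS.vmv (v := fun _ => e0) (Nv_smooth hJs hJ2)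
    (fun _ => contDiff_const))).add ?_
  refine MS.vmv (fun i => MS.mulVec hJs (Nv_smooth hJs hJ2) i) ?_
  intro j
  simp only [Matrix.vecMul, dotProduct]
  exact ContDiff.sum (fun k _ => contDiff_const.mul (hJs k j))

omit hJ2 in
lemma Dm_smooth : MS (fun t => Dm (J t)) := by
  unfold Dm
  exact (hJs.transpose.mul (MS.const _)).sub ((MS.const _).mul hJs)

lemma omega1_smooth (η : Matrix (Fin 4) (Fin 4) ℝ) : MS (fun t => omega1 (J t) η) := by
  unfold omega1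
  have hP := Pm_smooth hJs hJ2
  have hR := Rm_smooth hJs hJ2
  have hη := MS.const η
  exact ((hP.transpose.mul hη).mul hP |>.add
    (((hP.mul hJs).transpose.mul hη).mul (hP.mul hJs))).sub ((hR.transpose.mul hη).mul hR)

lemma omegaD_smooth (η : Matrix (Fin 4) (Fin 4) ℝ) (D : ℝ) : MS (fun t => omegaD (J t) η D) := by
  unfold omegaD
  exact (omega1_smooth hJs hJ2 η).add ((Dm_smooth hJs).smul D)

/-- Uniform choice of the large constant. -/
lemma exists_D (hper : Function.Periodic J 1) {η : Matrix (Fin 4) (Fin 4) ℝ} (hη : ηᵀ = -η)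
    (hL : ∀ t (v : Fin 4 → ℝ), v ≠ 0 → v 0 = 0 → (J t *ᵥ v) 0 = 0 → 0 < bil η v (J t *ᵥ v)) :
    ∃ D : ℝ, 0 ≤ D ∧ ∀ t (v : Fin 4 → ℝ), v ≠ 0 → 0 < bil (omegaD (J t) η D) v (J t *ᵥ v) := by
  -- continuity
  have hJc : Continuous J := by
    refine continuous_matrix (fun i j => (hJs i j).continuous)
  have hAc : Continuous (fun t => omega1 (J t) η) := by
    refine continuous_matrix (fun i j => (omega1_smooth hJs hJ2 η i j).continuous)
  have hw : Continuous (fun p : ℝ × (Fin 4 → ℝ) => J p.1 *ᵥ p.2) :=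
    (hJc.comp continuous_fst).matrix_mulVec continuous_snd
  let f : ℝ × (Fin 4 → ℝ) → ℝ := fun p => bil (omega1 (J p.1) η) p.2 (J p.1 *ᵥ p.2)
  let g : ℝ × (Fin 4 → ℝ) → ℝ := fun p => p.2 0 ^ 2 + (J p.1 *ᵥ p.2) 0 ^ 2
  have hf : Continuous f := by
    have : f = fun p => p.2 ⬝ᵥ (omega1 (J p.1) η *ᵥ (J p.1 *ᵥ p.2)) := rfl
    rw [this]
    exact continuous_snd.dotProduct ((hAc.comp continuous_fst).matrix_mulVec hw)
  have hg : Continuous g := by
    have h1 : Continuous (fun p : ℝ × (Fin 4 → ℝ) => p.2 0) :=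
      (continuous_apply 0).comp continuous_snd
    have h2 : Continuous (fun p : ℝ × (Fin 4 → ℝ) => (J p.1 *ᵥ p.2) 0) :=
      (continuous_apply 0).comp hw
    exact (h1.pow 2).add (h2.pow 2)
  have hgnn : ∀ p, 0 ≤ g p := fun p => by
    show 0 ≤ p.2 0 ^ 2 + (J p.1 *ᵥ p.2) 0 ^ 2
    positivity
  let K : Set (ℝ × (Fin 4 → ℝ)) := Icc (0:ℝ) 1 ×ˢ Metric.sphere (0 : Fin 4 → ℝ) 1
  have hK : IsCompact K := isCompact_Icc.prod (isCompact_sphere _ _)
  let K₁ : Set (ℝ × (Fin 4 → ℝ)) := K ∩ {p | f p ≤ 0}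
  have hK₁ : IsCompact K₁ := hK.inter_right (isClosed_le hf continuous_const)
  have hgpos : ∀ p ∈ K₁, 0 < g p := by
    rintro ⟨t, v⟩ ⟨⟨_, hv⟩, hfp⟩
    by_contra hcon
    have hg0 : v 0 ^ 2 + (J t *ᵥ v) 0 ^ 2 = 0 := le_antisymm (not_lt.mp hcon) (hgnn (t, v))
    have h1 : v 0 = 0 := by nlinarith [sq_nonneg (v 0), sq_nonneg ((J t *ᵥ v) 0)]
    have h2 : (J t *ᵥ v) 0 = 0 := by nlinarith [sq_nonneg (v 0), sq_nonneg ((J t *ᵥ v) 0)]
    have hne : v ≠ 0 := by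
      intro h
      rw [h] at hv
      simp at hv
    have hval : f (t, v) = bil η v (J t *ᵥ v) := bil_omega1_of_mem (hJ2 t) hη h1 h2
    have := hL t v hne h1 h2
    simp only [mem_setOf_eq] at hfp
    linarith
  obtain ⟨D, hD0, hD⟩ : ∃ D : ℝ, 0 ≤ D ∧ ∀ p ∈ K₁, 0 < f p + D * g p := by
    by_cases hne : K₁.Nonempty
    · obtain ⟨pm, hpm, hmin⟩ := hK₁.exists_isMinOn hne hg.continuousOn
      obtain ⟨pf, hpf, hminf⟩ := hK₁.exists_isMinOn hne hf.continuousOn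
      have hm := hgpos pm hpm
      have hC : 0 ≤ - f pf := by
        have : f pf ≤ 0 := hpf.2
        linarith
      refine ⟨(- f pf + 1) / g pm, by positivity, ?_⟩
      intro p hp
      have h1 : g pm ≤ g p := hmin hp
      have h2 : f pf ≤ f p := hminf hp
      have h3 : (- f pf + 1) / g pm * g p ≥ - f pf + 1 := by
        rw [ge_iff_le, div_mul_eq_mul_div, le_div_iff₀ hm]
        exact mul_le_mul_of_nonneg_left h1 (by linarith)
      linarith
    · refine ⟨0, le_refl _, ?_⟩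
      intro p hp
      exact absurd ⟨p, hp⟩ hne
  refine ⟨D, hD0, ?_⟩
  intro t v hv
  obtain ⟨t', ht', hJt⟩ := hper.exists_mem_Ico₀ one_pos t
  rw [hJt]
  have hr : 0 < ‖v‖ := norm_pos_iff.mpr hv
  obtain ⟨v', hv'⟩ : ∃ v' : Fin 4 → ℝ, v' = ‖v‖⁻¹ • v := ⟨_, rfl⟩
  have hvv : v = ‖v‖ • v' := by
    rw [hv', smul_smul, mul_inv_cancel₀ hr.ne', one_smul]
  have hnorm : ‖v'‖ = 1 := by
    rw [hv', norm_smul, norm_inv, norm_norm, inv_mul_cancel₀ hr.ne']
  have hmem : (t', v') ∈ K := ⟨⟨ht'.1, ht'.2.le⟩, by simpa using hnorm⟩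
  have hpos : 0 < f (t', v') + D * g (t', v') := by
    by_cases hfp : f (t', v') ≤ 0
    · exact hD _ ⟨hmem, hfp⟩
    · have := hgnn (t', v')
      have : 0 ≤ D * g (t', v') := mul_nonneg hD0 this
      have := not_le.mp hfp
      linarith
  have hfinal : bil (omegaD (J t') η D) v (J t' *ᵥ v)
      = ‖v‖ ^ 2 * (f (t', v') + D * g (t', v')) := by
    have e : bil (omegaD (J t') η D) v' (J t' *ᵥ v') = f (t', v') + D * g (t', v') :=
      bil_omegaD_J (hJ2 t') D v'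
    rw [← e]
    conv_lhs => rw [hvv]
    rw [mulVec_smul, bil_smul_right, bil_smul_mid]
    ring
  rw [hfinal]
  positivity

end

end Vale.Agent.Lib.P204
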