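import Mathlib
import Vale.Agent.Lib.P204.Slices
import Vale.Agent.Lib.P204.Uniform

open Matrix Set MeasureTheory
open scoped ContDiff

namespace Vale.Agent.Lib.P204

lemma bil_sum (A : Matrix (Fin 4) (Fin 4) ℝ) (a b : Fin 4 → ℝ) :
    bil A a b = ∑ i, ∑ j, a i * b j * A i j := by
  simp only [bil, dotProduct, mulVec, Finset.mul_sum]
  refine Finset.sum_congr rfl (fun i _ => Finset.sum_congr rfl (fun j _ => by ring))

lemma continuous_cons (t : ℝ) : Continuous (fun y : Fin 3 → ℝ => (Fin.cons t y : Fin 4 → ℝ)) := by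
  refine continuous_pi (fun i => ?_)
  refine Fin.cases ?_ (fun j => ?_) i
  · simpa using continuous_const
  · simpa using continuous_apply j

/-- Tamed implies compatible for almost complex structures on the four-torus depending on one
coordinate only. -/
theorem tamed_to_compatible_invariant
    (J : ℝ → Matrix (Fin 4) (Fin 4) ℝ)
    (hJs : ∀ i j, ContDiff ℝ ∞ (fun t => J t i j))
    (hJp : Function.Periodic J 1)
    (hJ2 : ∀ t, J t * J t = -1)
    (Ω : (Fin 4 → ℝ) → Matrix (Fin 4) (Fin 4) ℝ)
    (hΩs : ∀ i j, ContDiff ℝ ∞ (fun x => Ω x i j))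
    (hΩp : ∀ (k : Fin 4) x, Ω (x + Pi.single k 1) = Ω x)
    (hΩa : ∀ x, (Ω x)ᵀ = - Ω x)
    (hΩc : ∀ x i j k, fderiv ℝ (fun z => Ω z j k) x (Pi.single i 1)
      + fderiv ℝ (fun z => Ω z k i) x (Pi.single j 1)
      + fderiv ℝ (fun z => Ω z i j) x (Pi.single k 1) = 0)
    (htame : ∀ x (v : Fin 4 → ℝ), v ≠ 0 → 0 < v ⬝ᵥ (Ω x *ᵥ (J (x 0) *ᵥ v))) :
    ∃ σ : (Fin 4 → ℝ) → Matrix (Fin 4) (Fin 4) ℝ,
      (∀ i j, ContDiff ℝ ∞ (fun x => σ x i j)) ∧
      (∀ (k : Fin 4) x, σ (x + Pi.single k 1) = σ x) ∧
      (∀ x, (σ x)ᵀ = - σ x) ∧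
      (∀ x i j k, fderiv ℝ (fun z => σ z j k) x (Pi.single i 1)
        + fderiv ℝ (fun z => σ z k i) x (Pi.single j 1)
        + fderiv ℝ (fun z => σ z i j) x (Pi.single k 1) = 0) ∧
      (∀ x, (J (x 0))ᵀ * σ x * J (x 0) = σ x) ∧
      (∀ x (v : Fin 4 → ℝ), v ≠ 0 → 0 < v ⬝ᵥ (σ x *ᵥ (J (x 0) *ᵥ v))) := by
  classical
  let η : Matrix (Fin 4) (Fin 4) ℝ := fun i j => ∫ y in Icc (0 : Fin 3 → ℝ) 1, Ω (Fin.cons 0 y) i j
  have hη : ηᵀ = -η := by
    ext i j
    show (∫ y in Icc (0 : Fin 3 → ℝ) 1, Ω (Fin.cons 0 y) j i)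
      = -∫ y in Icc (0 : Fin 3 → ℝ) 1, Ω (Fin.cons 0 y) i j
    rw [← integral_neg]
    refine integral_congr_ae (Filter.Eventually.of_forall (fun y => ?_))
    have := congrFun (congrFun (hΩa (Fin.cons 0 y)) i) j
    simpa [Matrix.transpose_apply] using this
  have hslice : ∀ (i j : Fin 4), i ≠ 0 → j ≠ 0 → ∀ t : ℝ,
      (∫ y in Icc (0 : Fin 3 → ℝ) 1, Ω (Fin.cons t y) i j) = η i j := by
    intro i j hi hj t
    have key := fun (t₁ t₂ : ℝ) (ht : t₁ ≤ t₂) =>
      slice_integral_const (F := fun x => Ω x i j) (G := fun x => Ω x j 0) (H := fun x => Ω x 0 i)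
        (hΩs i j) (hΩs j 0) (hΩs 0 i) (l := i) (m := j) hi hj
        (fun x => by simp only [hΩp i x]) (fun x => by simp only [hΩp j x])
        (fun x => hΩc x 0 i j) t₁ t₂ ht
    rcases le_total 0 t with h | h
    · exact key 0 t h
    · exact (key t 0 h).symm
  have hcontent : ∀ (t : ℝ) (i j : Fin 4),
      Continuous (fun y : Fin 3 → ℝ => Ω (Fin.cons t y) i j) := fun t i j =>
    (hΩs i j).continuous.comp (continuous_cons t)
  have hL : ∀ t (v : Fin 4 → ℝ), v ≠ 0 → v 0 = 0 → (J t *ᵥ v) 0 = 0 →
      0 < bil η v (J t *ᵥ v) := by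
    intro t v hv h0 h1
    set w := J t *ᵥ v with hw
    have hterm : ∀ i j : Fin 4, v i * w j * η i j
        = ∫ y in Icc (0 : Fin 3 → ℝ) 1, v i * w j * Ω (Fin.cons t y) i j := by
      intro i j
      rw [integral_const_mul]
      by_cases hi : i = 0
      · subst hi; simp [h0]
      by_cases hj : j = 0
      · subst hj; simp [h1]
      rw [hslice i j hi hj t]
    have hsum : bil η v w = ∫ y in Icc (0 : Fin 3 → ℝ) 1, bil (Ω (Fin.cons t y)) v w := by
      simp only [bil_sum]
      rw [integral_finsetSum]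
      · refine Finset.sum_congr rfl (fun i _ => ?_)
        rw [integral_finsetSum]
        · refine Finset.sum_congr rfl (fun j _ => hterm i j)
        · intro j _
          exact (continuous_const.mul (hcontent t i j)).continuousOn.integrableOn_compact isCompact_Icc
      · intro i _
        have : Continuous (fun y : Fin 3 → ℝ => ∑ j, v i * w j * Ω (Fin.cons t y) i j) :=
          continuous_finsetSum _ (fun j _ => continuous_const.mul (hcontent t i j))
        exact this.continuousOn.integrableOn_compact isCompact_Icc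
    rw [hsum]
    apply slice_integral_pos
    · have : (fun y : Fin 3 → ℝ => bil (Ω (Fin.cons t y)) v w)
          = fun y => ∑ i, ∑ j, v i * w j * Ω (Fin.cons t y) i j := by
        funext y; exact bil_sum _ _ _
      rw [this]
      exact continuous_finsetSum _ (fun i _ => continuous_finsetSum _
        (fun j _ => continuous_const.mul (hcontent t i j)))
    · intro y
      have := htame (Fin.cons t y) v hv
      simpa [bil, hw] using this
  obtain ⟨D, _, hD⟩ := exists_D (J := J) hJs hJ2 hJp hη hL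
  have hsmooth := omegaD_smooth (J := J) hJs hJ2 η D
  have hproj : ContDiff ℝ ∞ (fun x : Fin 4 → ℝ => x 0) := contDiff_apply ℝ ℝ 0
  refine ⟨fun x => omegaD (J (x 0)) η D, ?_, ?_, ?_, ?_, ?_, ?_⟩
  · intro i j
    exact (hsmooth i j).comp hproj
  · intro k x
    by_cases hk : k = 0
    · subst hk
      have : (x + Pi.single 0 1 : Fin 4 → ℝ) 0 = x 0 + 1 := by simp
      simp only [this, hJp (x 0)]
    · have : (x + Pi.single k 1 : Fin 4 → ℝ) 0 = x 0 := by
        simp [Ne.symm hk]
      simp only [this]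
  · intro x
    exact omegaD_antisymm hη D
  · intro x i j k
    -- derivatives of functions of the first coordinate
    have hder : ∀ (a b : Fin 4) (l : Fin 4),
        fderiv ℝ (fun z : Fin 4 → ℝ => omegaD (J (z 0)) η D a b) x (Pi.single l 1)
          = deriv (fun t => omegaD (J t) η D a b) (x 0) * (Pi.single l (1:ℝ) : Fin 4 → ℝ) 0 := by
      intro a b l
      have h1 : HasDerivAt (fun t => omegaD (J t) η D a b)
          (deriv (fun t => omegaD (J t) η D a b) (x 0)) (x 0) :=
        ((hsmooth a b).differentiable (by simp) (x 0)).hasDerivAt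
      have h2 : HasFDerivAt (fun z : Fin 4 → ℝ => z 0)
          (ContinuousLinearMap.proj (R := ℝ) (φ := fun _ : Fin 4 => ℝ) 0) x := hasFDerivAt_apply 0 x
      have h3 := HasDerivAt.comp_hasFDerivAt x h1 h2
      have h4 : (fun z : Fin 4 → ℝ => omegaD (J (z 0)) η D a b)
          = (fun t => omegaD (J t) η D a b) ∘ fun z : Fin 4 → ℝ => z 0 := rfl
      rw [h4, h3.fderiv]
      simp
    have hanti : ∀ a b : Fin 4, deriv (fun t => omegaD (J t) η D a b) (x 0)
        = - deriv (fun t => omegaD (J t) η D b a) (x 0) := by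
      intro a b
      have : (fun t => omegaD (J t) η D a b) = fun t => - omegaD (J t) η D b a := by
        funext t
        have := congrFun (congrFun (omegaD_antisymm (J := J t) hη D) b) a
        simpa [Matrix.transpose_apply] using this
      rw [this]
      exact deriv.fun_neg
    have hconst : ∀ a b : Fin 4, a ≠ 0 → b ≠ 0 →
        deriv (fun t => omegaD (J t) η D a b) (x 0) = 0 := by
      intro a b ha hb
      have : (fun t => omegaD (J t) η D a b) = fun _ => η a b := by
        funext t
        have h := bil_omegaD_of_hyperplane (hJ2 t) hη D (a := Pi.single a 1) (b := Pi.single b 1)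
          (by simp [Ne.symm ha]) (by simp [Ne.symm hb])
        simpa [bil, mulVec_single, single_dotProduct] using h
      rw [this]
      simp
    have hs : ∀ l : Fin 4, (Pi.single l (1:ℝ) : Fin 4 → ℝ) 0 = if l = 0 then 1 else 0 := by
      intro l
      by_cases h : l = 0
      · subst h; simp
      · simp [Ne.symm h, h]
    rw [hder, hder, hder, hs, hs, hs]
    by_cases hi : i = 0 <;> by_cases hj : j = 0 <;> by_cases hk : k = 0
    · subst hi hj hk
      have := hanti 0 0
      simp
      linarith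
    · subst hi hj
      have := hanti 0 k
      simp [hk]
      linarith
    · subst hi hk
      have := hanti 0 j
      simp [hj]
      linarith
    · subst hi
      simp [hj, hk, hconst j k hj hk]
    · subst hj hk
      have := hanti 0 i
      simp [hi]
      linarith
    · subst hj
      simp [hi, hk, hconst k i hk hi]
    · subst hk
      simp [hi, hj, hconst i j hi hj]
    · simp [hi, hj, hk]
  · intro x
    exact omegaD_compatible (hJ2 _) hη D
  · intro x v hv
    exact hD (x 0) v hv

end Vale.Agent.Lib.P204
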